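import Vale.Agent.Lib.Space.Cmp
import Mathlib.Data.Nat.Pairing

/-!
Total functions of several numerical arguments computed by counter programs with polynomially
bounded registers: arithmetic and the pairing function.
-/

namespace Vale.Agent.Lib.Space

open Function

variable {A : Type}

/-- The total function `f` is computed with polynomially bounded registers. -/
def CF (B : List A → ℕ) (f : (ℕ → ℕ) → ℕ) : Prop := Cmp B fun _ v y => y = f v

/-- The function `f` is polynomially bounded. -/
def PB (f : (ℕ → ℕ) → ℕ) : Prop := ∃ c, ∀ v b, (∀ i, v i ≤ b) → f v ≤ pb c b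

variable {B : List A → ℕ} {f g n : (ℕ → ℕ) → ℕ}

theorem PB.var (i : ℕ) : PB fun v => v i :=
  ⟨1, fun _ b h => (h i).trans ((by omega : b ≤ b + 2).trans (le_pb 0 b))⟩

theorem PB.add (hf : PB f) (hg : PB g) : PB fun v => f v + g v := by
  obtain ⟨c, hc⟩ := hf
  obtain ⟨d, hd⟩ := hg
  exact ⟨c + d + 1, fun v b h => (add_le_add (hc v b h) (hd v b h)).trans (pb_add c d b)⟩

theorem PB.mul (hf : PB f) (hg : PB g) : PB fun v => f v * g v := by
  obtain ⟨c, hc⟩ := hf
  obtain ⟨d, hd⟩ := hg
  exact ⟨c + d, fun v b h => (Nat.mul_le_mul (hc v b h) (hd v b h)).trans (pb_mul c d b).le⟩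

theorem CF.congr (hf : CF B f) (h : ∀ v, f v = g v) : CF B g := by
  have : f = g := funext h
  rwa [← this]

theorem CF.var (i : ℕ) : CF B fun v => v i := Cmp.var i

theorem CF.zero : CF B fun _ => 0 := Cmp.zero

theorem CF.subst (hf : CF B f) (ρ : ℕ → ℕ) : CF B fun v => f fun i => v (ρ i) := Cmp.subst hf ρ

theorem CF.lett (hf : CF B f) (hg : CF B g) : CF B fun v => g (cons (f v) v) :=
  (Cmp.lett hf hg).mono fun _ v _ h => ⟨f v, rfl, h⟩

theorem CF.succ (hf : CF B f) : CF B fun v => f v + 1 :=
  (CF.lett (g := fun v => v 0 + 1) hf (Cmp.succ 0)).congr fun _ => rfl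

theorem CF.pred (hf : CF B f) : CF B fun v => f v - 1 :=
  (CF.lett (g := fun v => v 0 - 1) hf (Cmp.pred 0)).congr fun _ => rfl

theorem CF.const (k : ℕ) : CF B fun _ => k := by
  induction k with
  | zero => exact CF.zero
  | succ k ih => exact ih.succ

/-- A binary operation applied to two computed values. -/
theorem CF.app2 {F : ℕ → ℕ → ℕ} (hF : CF B fun v => F (v 0) (v 1)) (hf : CF B f) (hg : CF B g) :
    CF B fun v => F (f v) (g v) :=
  (hg.lett ((hf.subst Nat.succ).lett hF)).congr fun _ => rfl

theorem CF.app1 {F : ℕ → ℕ} (hF : CF B fun v => F (v 0)) (hf : CF B f) :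
    CF B fun v => F (f v) := (hf.lett hF).congr fun _ => rfl

/-- The step is repeated `v 0` times, starting from `v 1`. -/
theorem CF.rep {step : ℕ → (ℕ → ℕ) → ℕ} (hs : CF B fun v => step (v 0) fun i => v (i + 1))
    (hg : PB g) (h : ∀ v, ∀ k ≤ v 0, (fun a => step a v)^[k] (v 1) ≤ g v) :
    CF B fun v => (fun a => step a v)^[v 0] (v 1) := by
  obtain ⟨c, hc⟩ := hg
  refine (Cmp.loop (Cmp.pred 0) (Cmp.subst hs Nat.succ) (c + 1)).mono ?_
  rintro x v y rfl
  refine ⟨v 0, fun k => v 0 - k, fun k => (fun a => step a v)^[k] (v 1), rfl, rfl, rfl, by simp,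
    fun k hk => ⟨?_, ?_, ?_⟩, fun b hb _ k hk => ⟨?_, ?_⟩⟩
  · show v 0 - k ≠ 0
    omega
  · show v 0 - (k + 1) = v 0 - k - 1
    omega
  · exact iterate_succ_apply' _ _ _
  · have := hb 0
    have := le_pb c b
    show v 0 - k ≤ _
    omega
  · exact (h v k hk).trans ((hc v b hb).trans (pb_mono (by omega) b))

theorem CF.add (hf : CF B f) (hg : CF B g) : CF B fun v => f v + g v := by
  have key : ∀ a k : ℕ, (fun a => a + 1)^[k] a = a + k := fun a k => by
    induction k with
    | zero => rfl
    | succ k ih => rw [iterate_succ_apply', ih, add_assoc]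
  refine CF.app2 (F := fun a b => a + b) ?_ hf hg
  refine (CF.rep (step := fun a _ => a + 1) (CF.var 0).succ ((PB.var 0).add (PB.var 1))
    fun v k hk => ?_).congr fun v => ?_
  · rw [key]; omega
  · rw [key, add_comm]

theorem CF.sub (hf : CF B f) (hg : CF B g) : CF B fun v => f v - g v := by
  have key : ∀ a k : ℕ, (fun a => a - 1)^[k] a = a - k := fun a k => by
    induction k with
    | zero => rfl
    | succ k ih => rw [iterate_succ_apply', ih]; omega
  refine CF.app2 (F := fun a b => b - a) ?_ hg hf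
  refine (CF.rep (step := fun a _ => a - 1) (CF.var 0).pred (PB.var 1)
    fun v k _ => ?_).congr fun v => ?_
  · rw [key]; omega
  · rw [key]

theorem CF.mul (hf : CF B f) (hg : CF B g) : CF B fun v => f v * g v := by
  have key : ∀ a d k : ℕ, (fun a => a + d)^[k] a = a + k * d := fun a d k => by
    induction k with
    | zero => simp
    | succ k ih => rw [iterate_succ_apply', ih]; ring
  have h3 : CF B fun v => v 1 + v 0 * v 2 := by
    refine (CF.rep (step := fun a v => a + v 2) ((CF.var 0).add (CF.var 3))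
      ((PB.var 1).add ((PB.var 0).mul (PB.var 2))) fun v k hk => ?_).congr fun v => ?_
    · rw [key]; exact add_le_add le_rfl (Nat.mul_le_mul_right _ hk)
    · rw [key]
  refine CF.app2 (F := fun a b => a * b) ?_ hf hg
  exact (CF.zero.lett (h3.subst fun i => if i = 0 then 1 else if i = 1 then 0 else 2)).congr
    fun v => by simp

theorem CF.ifz {c : (ℕ → ℕ) → ℕ} (hc : CF B c) (hf : CF B f) (hg : CF B g) :
    CF B fun v => if c v = 0 then f v else g v := by
  have key : ∀ a d k : ℕ, (fun _ => d)^[k] a = if k = 0 then a else d := fun a d k => by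
    cases k with
    | zero => simp
    | succ k => rw [iterate_succ_apply']; simp
  have h3 : CF B fun v => if v 0 = 0 then v 1 else v 2 := by
    refine (CF.rep (step := fun _ v => v 2) (CF.var 3) ((PB.var 1).add (PB.var 2))
      fun v k _ => ?_).congr fun v => ?_
    · rw [key]; split_ifs <;> omega
    · rw [key]
  exact (hg.lett ((hf.subst Nat.succ).lett (((hc.subst Nat.succ).subst Nat.succ).lett h3))).congr
    fun _ => rfl

theorem CF.iflt {a b : (ℕ → ℕ) → ℕ} (ha : CF B a) (hb : CF B b) (hf : CF B f) (hg : CF B g) :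
    CF B fun v => if a v < b v then f v else g v :=
  (CF.ifz (hb.sub ha) hg hf).congr fun v => by
    by_cases h : a v < b v
    · rw [if_pos h, if_neg (by omega)]
    · rw [if_neg h, if_pos (by omega)]

theorem CF.pair (hf : CF B f) (hg : CF B g) : CF B fun v => Nat.pair (f v) (g v) :=
  CF.iflt hf hg ((hg.mul hg).add hf) (((hf.mul hf).add hf).add hg)

theorem CF.sqrt (hf : CF B f) : CF B fun v => Nat.sqrt (f v) := by
  have key : ∀ m k : ℕ, (fun a => if m < (a + 1) * (a + 1) then a else a + 1)^[k] 0 =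
      min k (Nat.sqrt m) := fun m k => by
    induction k with
    | zero => simp
    | succ k ih =>
      rw [iterate_succ_apply', ih]
      have h1 := Nat.sqrt_lt (m := m) (n := min k (Nat.sqrt m) + 1)
      split_ifs with h
      · have := h1.2 h; omega
      · have := mt h1.1 h; omega
  have h2 : CF B fun v => (fun a => if v 0 < (a + 1) * (a + 1) then a else a + 1)^[v 0] (v 1) := by
    refine CF.rep (step := fun a v => if v 0 < (a + 1) * (a + 1) then a else a + 1)
      (CF.iflt (CF.var 1) ((CF.var 0).succ.mul (CF.var 0).succ) (CF.var 0) (CF.var 0).succ)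
      ((PB.var 1).add (PB.var 0)) fun v k hk => ?_
    refine le_trans ?_ (add_le_add le_rfl hk)
    clear hk
    induction k with
    | zero => simp
    | succ k ih => rw [iterate_succ_apply']; split_ifs <;> omega
  refine CF.app1 (F := Nat.sqrt) ?_ hf
  refine (CF.app2 (F := fun m z => (fun a => if m < (a + 1) * (a + 1) then a else a + 1)^[m] z)
    h2 (CF.var 0) CF.zero).congr fun v => ?_
  rw [key, min_eq_right (Nat.sqrt_le_self _)]

theorem CF.unpair1 (hf : CF B f) : CF B fun v => (Nat.unpair (f v)).1 :=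
  (CF.iflt (hf.sub (hf.sqrt.mul hf.sqrt)) hf.sqrt (hf.sub (hf.sqrt.mul hf.sqrt)) hf.sqrt).congr
    fun v => by simp only [Nat.unpair]; split_ifs <;> rfl

theorem CF.unpair2 (hf : CF B f) : CF B fun v => (Nat.unpair (f v)).2 :=
  (CF.iflt (hf.sub (hf.sqrt.mul hf.sqrt)) hf.sqrt hf.sqrt
    ((hf.sub (hf.sqrt.mul hf.sqrt)).sub hf.sqrt)).congr
    fun v => by simp only [Nat.unpair]; split_ifs <;> rfl

end Vale.Agent.Lib.Space
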