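import Vale.Agent.Lib.Space.Counter
import Mathlib.Tactic

/-!
Relations computed by counter programs whose registers stay polynomially bounded in the values of
the arguments and in the budget `B x`.
-/

namespace Vale.Agent.Lib.Space

open Function

variable {A : Type}

/-! ### Small programs -/

section programs

variable {x : List A} {B : ℕ}

theorem CEval.congr {p : CProg A} {c : ℕ × (ℕ → ℕ)} {h : ℕ} {s s' : ℕ → ℕ}
    (H : CEval x B p c (h, s)) (e : ∀ j, s j = s' j) : CEval x B p c (h, s') := by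
  have : s = s' := funext e
  rwa [← this]

theorem CEval.le_max {p : CProg A} {c c' : ℕ × (ℕ → ℕ)} (H : CEval x B p c c') (i : ℕ) :
    c'.2 i ≤ max (c.2 i) B := by
  induction H with
  | skip c => exact le_max_left _ _
  | inc j h s hs =>
    simp only [update_apply]
    split_ifs with e
    · exact hs.trans (le_max_right _ _)
    · exact le_max_left _ _
  | dec j h s =>
    simp only [update_apply]
    split_ifs with e
    · subst e; exact (Nat.sub_le _ _).trans (le_max_left _ _)
    · exact le_max_left _ _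
  | left h s => exact le_max_left _ _
  | right h s => exact le_max_left _ _
  | seq _ _ ih ih' => omega
  | ifz_zero _ _ ih => exact ih
  | ifz_pos _ _ ih => exact ih
  | ifin_true _ _ ih => exact ih
  | ifin_false _ _ ih => exact ih
  | loop_zero _ => exact le_max_left _ _
  | loop_pos _ _ _ ih ih' => omega

/-- Clear register `i`. -/
def clr (i : ℕ) : CProg A := .loop i (.dec i)

theorem clr_eval (i h : ℕ) (s : ℕ → ℕ) : CEval x B (clr i) (h, s) (h, update s i 0) := by
  suffices H : ∀ n (s : ℕ → ℕ), s i = n → CEval x B (clr i) (h, s) (h, update s i 0) from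
    H _ s rfl
  intro n
  induction n with
  | zero =>
    intro s hs
    refine (CEval.loop_zero (c := (h, s)) hs).congr fun j => ?_
    rw [update_apply]; split_ifs with e
    · rw [e, hs]
    · rfl
  | succ n ih =>
    intro s hs
    refine CEval.loop_pos (c := (h, s)) (by simp [hs]) (.dec i h s) ((ih _ (by simp [hs])).congr ?_)
    intro j
    simp

/-- Add register `i` to register `j` and clear register `i`. -/
def mov (i j : ℕ) : CProg A := .loop i (.seq (.dec i) (.inc j))

theorem mov_eval {i j : ℕ} (hij : i ≠ j) (h : ℕ) (s : ℕ → ℕ) (hB : s j + s i ≤ B) :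
    CEval x B (mov i j) (h, s) (h, update (update s i 0) j (s j + s i)) := by
  suffices H : ∀ n (s : ℕ → ℕ), s i = n → s j + s i ≤ B →
      CEval x B (mov i j) (h, s) (h, update (update s i 0) j (s j + s i)) from H _ s rfl hB
  intro n
  induction n with
  | zero =>
    intro s hs _
    refine (CEval.loop_zero (c := (h, s)) hs).congr fun k => ?_
    simp only [update_apply]; split_ifs with e e'
    · rw [e, hs, add_zero]
    · rw [e', hs]
    · rfl
  | succ n ih =>
    intro s hs hB
    have h1 : update s i (s i - 1) j = s j := update_of_ne hij.symm _ _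
    refine CEval.loop_pos (c := (h, s)) (by simp [hs])
      (.seq (.dec i h s) (.inc j h _ (by rw [h1]; omega)))
      ((ih _ (by simp [hs, hij]) (by simp [hij, hij.symm]; omega)).congr ?_)
    intro k
    simp only [update_apply]; split_ifs <;> simp_all
    omega

/-- Add register `i` to the registers `j` and `k` and clear register `i`. -/
def mov2 (i j k : ℕ) : CProg A := .loop i (.seq (.dec i) (.seq (.inc j) (.inc k)))

theorem mov2_eval {i j k : ℕ} (hij : i ≠ j) (hik : i ≠ k) (hjk : j ≠ k) (h : ℕ) (s : ℕ → ℕ)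
    (hB : s j + s i ≤ B) (hB' : s k + s i ≤ B) :
    CEval x B (mov2 i j k) (h, s)
      (h, update (update (update s i 0) j (s j + s i)) k (s k + s i)) := by
  suffices H : ∀ n (s : ℕ → ℕ), s i = n → s j + s i ≤ B → s k + s i ≤ B →
      CEval x B (mov2 i j k) (h, s)
        (h, update (update (update s i 0) j (s j + s i)) k (s k + s i)) from H _ s rfl hB hB'
  intro n
  induction n with
  | zero =>
    intro s hs _ _
    refine (CEval.loop_zero (c := (h, s)) hs).congr fun l => ?_
    simp only [update_apply]; split_ifs with e e' e''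
    · rw [e, hs, add_zero]
    · rw [e', hs, add_zero]
    · rw [e'', hs]
    · rfl
  | succ n ih =>
    intro s hs hB hB'
    refine CEval.loop_pos (c := (h, s)) (by simp [hs])
      (.seq (.dec i h s) (.seq (.inc j h _ (by simp [hij.symm]; omega))
        (.inc k h _ (by simp [hik.symm, hjk.symm]; omega))))
      ((ih _ (by simp [hs, hij, hik]) (by simp [hij, hik, hjk, hij.symm]; omega)
        (by simp [hij, hik, hik.symm, hjk.symm]; omega)).congr ?_)
    intro l
    simp only [update_apply]; split_ifs <;> simp_all <;> omega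

/-- Copy register `i` to register `j` (which is zero, as is register `j + 1`). -/
def cpy (i j : ℕ) : CProg A := .seq (mov2 i j (j + 1)) (mov (j + 1) i)

theorem cpy_eval {i j : ℕ} (hij : i < j) (h : ℕ) (s : ℕ → ℕ) (hj : s j = 0) (hj' : s (j + 1) = 0)
    (hB : s i ≤ B) : CEval x B (cpy i j) (h, s) (h, update s j (s i)) := by
  have h1 : i ≠ j := by omega
  have h2 : i ≠ j + 1 := by omega
  refine .seq (mov2_eval h1 h2 (by omega) h s (by omega) (by omega))
    ((mov_eval h2.symm h _ (by simp [h1, h2]; omega)).congr fun l => ?_)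
  simp only [update_apply]; split_ifs <;> simp_all

/-- Move the input head to the left endmarker (register `i` is zero). -/
def rewind (i : ℕ) : CProg A :=
  .seq (.inc i) (.loop i (.ifin (fun a => match a with | .first => true | _ => false) (.dec i) .left))

theorem rewind_eval (i h : ℕ) (s : ℕ → ℕ) (hi : s i = 0) (hB : 1 ≤ B) :
    CEval x B (rewind i) (h, s) (0, s) := by
  refine .seq (.inc i h s (by omega)) ?_
  induction h with
  | zero =>
    refine CEval.loop_pos (by simp) (.ifin_true rfl (.dec i 0 _)) ?_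
    refine (CEval.loop_zero (by simp [hi])).congr fun j => ?_
    simp only [update_apply]; split_ifs <;> simp_all
  | succ h ih =>
    refine CEval.loop_pos (by simp) (.ifin_false ?_ (.left _ _)) ih
    simp only [inAt]
    cases x[h]? <;> rfl

/-- Move the input head to the right as often as register `i` says, and clear this register. -/
def walk (i : ℕ) : CProg A := .loop i (.seq (.dec i) .right)

theorem walk_eval (i h : ℕ) (s : ℕ → ℕ) (hh : h ≤ x.length + 1) :
    CEval x B (walk i) (h, s) (min (h + s i) (x.length + 1), update s i 0) := by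
  suffices H : ∀ n h (s : ℕ → ℕ), h ≤ x.length + 1 → s i = n →
      CEval x B (walk i) (h, s) (min (h + s i) (x.length + 1), update s i 0) from H _ h s hh rfl
  intro n
  induction n with
  | zero =>
    intro h s hh hs
    rw [hs, add_zero, min_eq_left hh]
    refine (CEval.loop_zero (c := (h, s)) hs).congr fun j => ?_
    rw [update_apply]; split_ifs with e
    · rw [e, hs]
    · rfl
  | succ n ih =>
    intro h s hh hs
    have h1 := ih (min (h + 1) (x.length + 1)) (update s i (s i - 1)) (min_le_right _ _)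
      (by simp [hs])
    have h2 : min (min (h + 1) (x.length + 1) + update s i (s i - 1) i) (x.length + 1) =
        min (h + s i) (x.length + 1) := by
      rw [update_self, hs]; omega
    rw [h2] at h1
    refine CEval.loop_pos (c := (h, s)) (by simp [hs]) (.seq (.dec i h s) (.right _ _))
      (h1.congr fun j => ?_)
    simp

theorem inAt_min (x : List A) (p : ℕ) : inAt x (min p (x.length + 1)) = inAt x p := by
  rcases le_total p (x.length + 1) with h | h
  · rw [min_eq_left h]
  · rw [min_eq_right h]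
    obtain ⟨p, rfl⟩ : ∃ q, p = q + 1 := ⟨p - 1, by omega⟩
    simp only [inAt]
    rw [List.getElem?_eq_none (by omega), List.getElem?_eq_none (by omega)]

end programs

/-! ### The polynomial bounds -/

/-- The bound `(b + 2) ^ c`. -/
def pb (c b : ℕ) : ℕ := (b + 2) ^ c

theorem pb_pos (c b : ℕ) : 1 ≤ pb c b := Nat.one_le_pow _ _ (by omega)

theorem pb_mono {c c' : ℕ} (h : c ≤ c') (b : ℕ) : pb c b ≤ pb c' b :=
  Nat.pow_le_pow_right (by omega) h

theorem pb_mono_right (c : ℕ) {b b' : ℕ} (h : b ≤ b') : pb c b ≤ pb c b' :=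
  Nat.pow_le_pow_left (by omega) c

theorem le_pb (c b : ℕ) : b + 2 ≤ pb (c + 1) b := by
  have := pb_mono (show 1 ≤ c + 1 by omega) b
  simpa [pb] using this

theorem pb_add_two (c b : ℕ) : pb c b + 2 ≤ pb (c + 2) b := by
  have := pb_pos c b
  simp only [pb, pow_succ] at this ⊢
  nlinarith [Nat.zero_le b, Nat.zero_le (b * b), Nat.zero_le ((b + 2) ^ c * b),
    Nat.zero_le ((b + 2) ^ c * b * b)]

theorem pb_pb (c d b : ℕ) : pb d (pb c b) ≤ pb ((c + 2) * d) b := by
  rw [pb, pb, pb, pow_mul]
  exact Nat.pow_le_pow_left (pb_add_two c b) d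

theorem pb_mul (c d b : ℕ) : pb c b * pb d b = pb (c + d) b := by
  simp only [pb, pow_add]

theorem pb_add (c d b : ℕ) : pb c b + pb d b ≤ pb (c + d + 1) b := by
  have h1 := pb_mono (show c ≤ c + d by omega) b
  have h2 := pb_mono (show d ≤ c + d by omega) b
  have h3 : pb (c + d + 1) b = pb (c + d) b * (b + 2) := by simp only [pb, pow_succ]
  nlinarith [Nat.zero_le (pb (c + d) b * b)]

/-! ### Computable relations -/

/-- A new first entry. -/
def cons (a : ℕ) (v : ℕ → ℕ) : ℕ → ℕ
  | 0 => a
  | i + 1 => v i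

@[simp] theorem cons_zero (a : ℕ) (v : ℕ → ℕ) : cons a v 0 = a := rfl
@[simp] theorem cons_succ (a : ℕ) (v : ℕ → ℕ) (i : ℕ) : cons a v (i + 1) = v i := rfl
@[simp] theorem cons_one (a : ℕ) (v : ℕ → ℕ) : cons a v 1 = v 0 := rfl
@[simp] theorem cons_two (a : ℕ) (v : ℕ → ℕ) : cons a v 2 = v 1 := rfl
@[simp] theorem cons_three (a : ℕ) (v : ℕ → ℕ) : cons a v 3 = v 2 := rfl
@[simp] theorem cons_four (a : ℕ) (v : ℕ → ℕ) : cons a v 4 = v 3 := rfl

theorem cons_le {a b : ℕ} {v : ℕ → ℕ} (ha : a ≤ b) (hv : ∀ i, v i ≤ b) : ∀ i, cons a v i ≤ b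
  | 0 => ha
  | i + 1 => hv i

/-- Whenever `R x v y` holds, the value `y` is computed from the input word `x` and the arguments
`v` by a program, with registers polynomially bounded in the arguments and in `B x`. The arguments
are in the registers `loc i`, the result is put in the register `out`. -/
def Cmp (B : List A → ℕ) (R : List A → (ℕ → ℕ) → ℕ → Prop) : Prop :=
  ∃ c : ℕ, ∀ (loc : ℕ → ℕ) (out : ℕ), (∀ i, loc i < out) → ∃ p : CProg A,
    ∀ (x : List A) (h : ℕ) (s : ℕ → ℕ) (b y : ℕ), (∀ j, out ≤ j → s j = 0) →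
      (∀ i, s (loc i) ≤ b) → B x ≤ b → R x (fun i => s (loc i)) y →
      ∃ h', CEval x (pb c b) p (h, s) (h', update s out y)

variable {B : List A → ℕ} {R R' R₁ R₂ : List A → (ℕ → ℕ) → ℕ → Prop}

theorem Cmp.mono (H : Cmp B R) (h : ∀ x v y, R' x v y → R x v y) : Cmp B R' := by
  obtain ⟨c, H⟩ := H
  refine ⟨c, fun loc out hl => ?_⟩
  obtain ⟨p, hp⟩ := H loc out hl
  exact ⟨p, fun x h0 s b y h1 h2 h3 h4 => hp x h0 s b y h1 h2 h3 (h _ _ _ h4)⟩

theorem Cmp.subst (H : Cmp B R) (ρ : ℕ → ℕ) : Cmp B fun x v y => R x (fun i => v (ρ i)) y := by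
  obtain ⟨c, H⟩ := H
  refine ⟨c, fun loc out hl => ?_⟩
  obtain ⟨p, hp⟩ := H (fun i => loc (ρ i)) out fun i => hl _
  exact ⟨p, fun x h0 s b y h1 h2 h3 h4 => hp x h0 s b y h1 (fun i => h2 _) h3 h4⟩

theorem Cmp.bound (H : Cmp B R) : ∃ c, ∀ x v y b, (∀ i, v i = v 0) → v 0 ≤ b → B x ≤ b →
    R x v y → y ≤ pb c b := by
  obtain ⟨c, H⟩ := H
  obtain ⟨p, hp⟩ := H (fun _ => 0) 1 fun _ => by omega
  refine ⟨c, fun x v y b hv hb hB hR => ?_⟩
  obtain ⟨h', H'⟩ := hp x 0 (update (fun _ => 0) 0 (v 0)) b y
    (fun j hj => by rw [update_of_ne (by omega)]) (fun _ => by simpa) hB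
    (by convert hR using 2; simp [hv])
  have := H'.le_max 1
  simpa using this

theorem Cmp.zero : Cmp B fun _ _ y => y = 0 := by
  refine ⟨0, fun loc out _ => ⟨.skip, fun x h s b y h1 _ _ h4 => ⟨h, (CEval.skip _).congr ?_⟩⟩⟩
  intro j
  simp only [update_apply]; split_ifs with e
  · rw [e, h4, h1 out le_rfl]
  · rfl

theorem Cmp.var (i : ℕ) : Cmp B fun _ v y => y = v i := by
  refine ⟨1, fun loc out hl => ⟨cpy (loc i) out, fun x h s b y h1 h2 _ h4 => ⟨h, ?_⟩⟩⟩
  rw [h4]
  exact cpy_eval (hl i) h s (h1 _ le_rfl) (h1 _ (by omega))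
    ((h2 i).trans ((by omega : b ≤ b + 2).trans (le_pb 0 b)))

theorem Cmp.succ (i : ℕ) : Cmp B fun _ v y => y = v i + 1 := by
  refine ⟨1, fun loc out hl => ⟨.seq (cpy (loc i) out) (.inc out),
    fun x h s b y h1 h2 _ h4 => ⟨h, ?_⟩⟩⟩
  have h5 := le_pb 0 b
  have h6 := h2 i
  refine .seq (cpy_eval (hl i) h s (h1 _ le_rfl) (h1 _ (by omega)) (by simp at h5; omega))
    ((CEval.inc out h _ (by simp at h5 ⊢; omega)).congr fun j => ?_)
  simp [h4]

theorem Cmp.pred (i : ℕ) : Cmp B fun _ v y => y = v i - 1 := by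
  refine ⟨1, fun loc out hl => ⟨.seq (cpy (loc i) out) (.dec out),
    fun x h s b y h1 h2 _ h4 => ⟨h, ?_⟩⟩⟩
  have h5 := le_pb 0 b
  have h6 := h2 i
  refine .seq (cpy_eval (hl i) h s (h1 _ le_rfl) (h1 _ (by omega)) (by simp at h5; omega))
    ((CEval.dec out h _).congr fun j => ?_)
  simp [h4]

theorem Cmp.inTest (t : InSym A → Bool) (i : ℕ) :
    Cmp B fun x v y => y = if t (inAt x (v i)) then 1 else 0 := by
  refine ⟨1, fun loc out hl => ⟨.seq (rewind out) (.seq (cpy (loc i) out) (.seq (walk out)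
    (.ifin t (.inc out) .skip))), fun x h s b y h1 h2 _ h4 =>
      ⟨min (s (loc i)) (x.length + 1), ?_⟩⟩⟩
  have h5 := le_pb 0 b
  have h6 := h2 i
  have h7 := h1 out le_rfl
  simp only [zero_add] at h5
  refine .seq (rewind_eval out h s h7 (by omega))
    (.seq (cpy_eval (hl i) 0 s h7 (h1 _ (by omega)) (by omega)) (.seq (walk_eval out 0 _ (by omega)) ?_))
  simp only [zero_add, update_self, update_idem]
  by_cases ht : t (inAt x (s (loc i))) = true
  · refine .ifin_true (by simpa only [inAt_min] using ht)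
      ((CEval.inc out _ _ (by simp; omega)).congr fun j => ?_)
    simp [h4, ht]
  · refine .ifin_false (by simpa only [inAt_min, Bool.not_eq_true] using ht)
      ((CEval.skip _).congr fun j => ?_)
    simp [h4, ht]

theorem cons_loc (s loc : ℕ → ℕ) {out : ℕ} (hl : ∀ i, loc i < out) (z : ℕ) :
    (fun i => update s out z (cons out loc i)) = cons z fun i => s (loc i) := by
  funext i
  cases i with
  | zero => simp
  | succ i => simp [(hl i).ne]

theorem cons_lt {loc : ℕ → ℕ} {out : ℕ} (hl : ∀ i, loc i < out) : ∀ i, cons out loc i < out + 1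
  | 0 => by simp
  | i + 1 => by have := hl i; simp; omega

theorem Cmp.lett (H₁ : Cmp B R₁) (H₂ : Cmp B R₂) :
    Cmp B fun x v y => ∃ z, R₁ x v z ∧ R₂ x (cons z v) y := by
  obtain ⟨c₁, H₁⟩ := H₁
  obtain ⟨c₂, H₂⟩ := H₂
  refine ⟨(c₁ + 1 + 2) * (c₂ + 1), fun loc out hl => ?_⟩
  obtain ⟨p₁, hp₁⟩ := H₁ loc out hl
  obtain ⟨p₂, hp₂⟩ := H₂ (cons out loc) (out + 1) (cons_lt hl)
  refine ⟨.seq p₁ (.seq p₂ (.seq (clr out) (mov (out + 1) out))), ?_⟩
  rintro x h s b y h1 h2 h3 ⟨z, hz, hy⟩
  obtain ⟨h', E₁⟩ := hp₁ x h s b z h1 h2 h3 hz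
  have hz' : z ≤ pb c₁ b := by simpa [h1 out le_rfl] using E₁.le_max out
  have hb := le_pb c₁ b
  have hc := pb_mono (show c₁ ≤ c₁ + 1 by omega) b
  obtain ⟨h'', E₂⟩ := hp₂ x h' (update s out z) (pb (c₁ + 1) b) y
    (fun j hj => by rw [update_of_ne (by omega)]; exact h1 j (by omega))
    (fun i => by
      rw [congrFun (cons_loc s loc hl z) i]
      exact cons_le (by omega) (fun i => (h2 i).trans (by omega)) i)
    (by omega) (by rwa [cons_loc s loc hl z])
  have hy' : y ≤ pb c₂ (pb (c₁ + 1) b) := by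
    simpa [h1 (out + 1) (by omega)] using E₂.le_max (out + 1)
  have hd : pb c₂ (pb (c₁ + 1) b) ≤ pb ((c₁ + 1 + 2) * (c₂ + 1)) b :=
    (pb_pb _ _ _).trans (pb_mono (by nlinarith) b)
  refine ⟨h'', .seq (E₁.mono (pb_mono (by nlinarith) b)) (.seq (E₂.mono hd)
    (.seq (clr_eval out h'' _) ((mov_eval (by omega) h'' _ (by simp; omega)).congr fun j => ?_)))⟩
  have := h1 (out + 1) (by omega)
  simp only [update_apply]; split_ifs <;> simp_all

/-- The loop with two state registers: `t` (the loop runs until it is zero) and `a`. -/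
theorem Cmp.loop (H₁ : Cmp B R₁) (H₂ : Cmp B R₂) (c : ℕ) :
    Cmp B fun x v y => ∃ (n : ℕ) (t a : ℕ → ℕ), t 0 = v 0 ∧ a 0 = v 1 ∧ y = a n ∧ t n = 0 ∧
      (∀ k < n, t k ≠ 0 ∧ R₁ x (cons (t k) (cons (a k) v)) (t (k + 1)) ∧
        R₂ x (cons (t k) (cons (a k) v)) (a (k + 1))) ∧
      ∀ b, (∀ i, v i ≤ b) → B x ≤ b → ∀ k ≤ n, t k ≤ pb c b ∧ a k ≤ pb c b := by
  obtain ⟨c₁, H₁⟩ := H₁
  obtain ⟨c₂, H₂⟩ := H₂
  refine ⟨(c + 1 + 2) * (c₁ + c₂ + 1), fun loc out hl => ?_⟩
  have hl' := cons_lt (cons_lt hl)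
  obtain ⟨p₁, hp₁⟩ := H₁ _ (out + 1 + 1) hl'
  obtain ⟨p₂, hp₂⟩ := H₂ _ (out + 1 + 1 + 1) fun i => (hl' i).trans (Nat.lt_succ_self _)
  refine ⟨.seq (cpy (loc 1) out) (.seq (cpy (loc 0) (out + 1)) (.loop (out + 1)
    (.seq p₁ (.seq p₂ (.seq (clr out) (.seq (clr (out + 1))
      (.seq (mov (out + 1 + 1 + 1) out) (mov (out + 1 + 1) (out + 1))))))))), ?_⟩
  rintro x h s b y h1 h2 h3 ⟨n, t, a, ht, ha, hy, hn, hk, hb⟩
  replace hb := hb b h2 h3
  have hb1 := le_pb c b
  have hb2 := pb_mono (show c ≤ c + 1 by omega) b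
  have hb3 : pb (c + 1) b ≤ pb ((c + 1 + 2) * (c₁ + c₂ + 1)) b := pb_mono (by nlinarith) b
  have hb4 : pb c₁ (pb (c + 1) b) ≤ pb ((c + 1 + 2) * (c₁ + c₂ + 1)) b :=
    (pb_pb _ _ _).trans (pb_mono (by nlinarith) b)
  have hb5 : pb c₂ (pb (c + 1) b) ≤ pb ((c + 1 + 2) * (c₁ + c₂ + 1)) b :=
    (pb_pb _ _ _).trans (pb_mono (by nlinarith) b)
  have e0 := h1 out le_rfl
  have e1 := h1 (out + 1) (by omega)
  have e2 := h1 (out + 1 + 1) (by omega)
  have e3 := h1 (out + 1 + 1 + 1) (by omega)
  have key : ∀ m k h, k + m = n → ∃ h', CEval x (pb ((c + 1 + 2) * (c₁ + c₂ + 1)) b)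
      (.loop (out + 1) (.seq p₁ (.seq p₂ (.seq (clr out) (.seq (clr (out + 1))
        (.seq (mov (out + 1 + 1 + 1) out) (mov (out + 1 + 1) (out + 1))))))))
      (h, update (update s out (a k)) (out + 1) (t k)) (h', update s out y) := by
    intro m
    induction m with
    | zero =>
      intro k h hkn
      obtain rfl : k = n := by omega
      refine ⟨h, (CEval.loop_zero (by simp [hn])).congr fun j => ?_⟩
      simp only [update_apply]; split_ifs <;> simp_all
    | succ m ih =>
      intro k h hkn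
      obtain ⟨ht0, hR₁, hR₂⟩ := hk k (by omega)
      have hbk := hb k (by omega)
      have hbk' := hb (k + 1) (by omega)
      have env : (fun i => update (update s out (a k)) (out + 1) (t k)
          (cons (out + 1) (cons out loc) i)) = cons (t k) (cons (a k) fun i => s (loc i)) := by
        rw [cons_loc _ _ (cons_lt hl), cons_loc _ _ hl]
      have envb : ∀ i, cons (t k) (cons (a k) fun i => s (loc i)) i ≤ pb (c + 1) b :=
        cons_le (by omega) (cons_le (by omega) fun i => (h2 i).trans (by omega))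
      obtain ⟨h', E₁⟩ := hp₁ x h (update (update s out (a k)) (out + 1) (t k)) (pb (c + 1) b)
        (t (k + 1))
        (fun j hj => by
          rw [update_of_ne (by omega), update_of_ne (by omega)]; exact h1 j (by omega))
        (fun i => by rw [congrFun env i]; exact envb i) (by omega) (by rwa [env])
      have env' : (fun i => update (update (update s out (a k)) (out + 1) (t k)) (out + 1 + 1)
          (t (k + 1)) (cons (out + 1) (cons out loc) i)) =
          cons (t k) (cons (a k) fun i => s (loc i)) := by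
        rw [← env]
        funext i
        exact update_of_ne (hl' i).ne _ _
      obtain ⟨h'', E₂⟩ := hp₂ x h' (update (update (update s out (a k)) (out + 1) (t k))
        (out + 1 + 1) (t (k + 1))) (pb (c + 1) b) (a (k + 1))
        (fun j hj => by
          rw [update_of_ne (by omega), update_of_ne (by omega), update_of_ne (by omega)]
          exact h1 j (by omega))
        (fun i => by rw [congrFun env' i]; exact envb i) (by omega) (by rwa [env'])
      obtain ⟨h₃, E₃⟩ := ih (k + 1) h'' (by omega)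
      refine ⟨h₃, .loop_pos (by simpa using ht0) (.seq (E₁.mono hb4) (.seq (E₂.mono hb5)
        (.seq (clr_eval out h'' _) (.seq (clr_eval (out + 1) h'' _)
        (.seq (mov_eval (by omega) h'' _ (by
          simp (disch := omega) only [update_of_ne, update_self]; omega))
        ((mov_eval (by omega) h'' _ (by
          simp (disch := omega) only [update_of_ne, update_self]; omega)).congr
          fun j => ?_)))))) E₃⟩
      by_cases j1 : j = out + 1
      · subst j1; simp (disch := omega) only [update_of_ne, update_self, zero_add]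
      by_cases j0 : j = out
      · rw [j0]; simp (disch := omega) only [update_of_ne, update_self, zero_add]
      by_cases j2 : j = out + 1 + 1
      · subst j2; simp (disch := omega) only [update_of_ne, update_self, e2]
      by_cases j3 : j = out + 1 + 1 + 1
      · subst j3; simp (disch := omega) only [update_of_ne, update_self, e3]
      simp (disch := omega) only [update_of_ne]
  obtain ⟨h', E⟩ := key n 0 h (by omega)
  have l0 := h2 0
  have l1 := h2 1
  refine ⟨h', .seq (cpy_eval (hl 1) h s e0 e1 (by omega))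
    (.seq (cpy_eval ((hl 0).trans (Nat.lt_succ_self _)) h _ (by simpa) (by
      rw [update_of_ne (by omega)]; exact e2) (by rw [update_of_ne (hl 0).ne]; omega)) ?_)⟩
  rw [update_of_ne (hl 0).ne]
  simp only at ht ha
  rwa [ht, ha] at E

end Vale.Agent.Lib.Space
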