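import Vale.Agent.Lib.Space.Frag
import Mathlib.Data.Nat.Log

/-!
Work tapes used as stacks of bits, and numbers in bijective base two on such stacks.
-/

namespace Vale.Agent.Lib.Space

open Function

variable {A T : Type} {x : List A} {S : ℕ}

/-- The tape which holds the stack `l` in the cells `1, …, l.length`, the top is on the right. -/
def tapeOf : List Bool → ℤ → Option Bool
  | [] => fun _ => none
  | b :: l => update (tapeOf l) ((l.length : ℤ) + 1) (some b)

theorem tapeOf_above (l : List Bool) (p : ℤ) (hp : (l.length : ℤ) < p) : tapeOf l p = none := by
  induction l with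
  | nil => rfl
  | cons b l ih =>
    rw [List.length_cons] at hp
    push_cast at hp
    rw [tapeOf, update_of_ne (by omega)]
    exact ih (by omega)

theorem tapeOf_top (l : List Bool) : tapeOf l l.length = l.head? := by
  cases l with
  | nil => rfl
  | cons b l => simp [tapeOf]

/-- The memory which holds the given stacks, the heads are on the tops. -/
def memOf (h : ℕ) (St : T → List Bool) : Mem T :=
  ⟨h, fun i => tapeOf (St i), fun i => (St i).length⟩

theorem scan_memOf (h : ℕ) (St : T → List Bool) (i : T) : (memOf h St).scan i = (St i).head? :=
  tapeOf_top _

/-- All stacks have length at most `S`. -/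
def Bd (S : ℕ) (St : T → List Bool) : Prop := ∀ i, (St i).length ≤ S

theorem in_memOf {h : ℕ} {St : T → List Bool} : (memOf h St).In S ↔ Bd S St := by
  simp [Mem.In, memOf, Bd]

theorem Bd.update [DecidableEq T] {St : T → List Bool} (h : Bd S St) (i : T) {l : List Bool}
    (hl : l.length ≤ S) : Bd S (update St i l) := by
  intro j
  by_cases e : j = i
  · subst e
    simpa using hl
  · rw [update_of_ne e]
    exact h j

namespace Frag

variable [DecidableEq T]

/-- One step which acts only on the work tape `i`. -/
def single (i : T) (f : Option Bool → Option Bool × Move) : Frag A T :=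
  act fun r => (.stay, fun j => if j = i then f (r i) else (r j, .stay))

/-- Move the input head. -/
def inMove (d : Move) : Frag A T := act fun r => (d, fun j => (r j, .stay))

/-- Remove the top of the stack `i`. -/
def pop (i : T) : Frag A T := single i fun a => (none, bif a.isSome then .left else .stay)

/-- Push `b` on the stack `i`. -/
def push (i : T) (b : Bool) : Frag A T :=
  (single i fun a => (a, .right)).seq (single i fun _ => (some b, .stay))

/-- While the top of `i` is `b`, remove it and push `b'` on `j`. -/
def mv (i j : T) (b b' : Bool) : Frag A T :=
  loop (fun r => decide (r i = some b)) ((pop i).seq (push j b'))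

/-- Increment of the number on the stack `i`, with the help of the empty stack `j`. -/
def inc (i j : T) : Frag A T :=
  (mv i j true false).seq
    ((cond (fun _ r => (r i).isSome) ((pop i).seq (push i true)) (push i false)).seq
      (mv j i false false))

/-- Decrement of the number on the stack `i`, with the help of the empty stack `j`. -/
def dec (i j : T) : Frag A T :=
  (mv i j false false).seq
    ((cond (fun _ r => (r i).isSome) ((pop i).seq (push i false)) (pop j)).seq
      (mv j i false true))

end Frag

variable [DecidableEq T]

theorem Run.single {i : T} {f : Option Bool → Option Bool × Move} {m m' : Mem T} (h : m.In S)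
    (h' : m'.In S) (h1 : m'.inHead = m.inHead)
    (h2 : m'.tape = update m.tape i (update (m.tape i) (m.head i) (f (m.scan i)).1))
    (h3 : m'.head = update m.head i ((f (m.scan i)).2.app (m.head i))) :
    Run (Frag.single i f : Frag A T) x S m m' := by
  have e : m' = m.apply x.length
      (.stay, fun j => if j = i then f (m.scan i) else (m.scan j, .stay)) := by
    obtain ⟨a, b, c⟩ := m'
    simp only at h1 h2 h3
    subst h1 h2 h3
    simp only [Mem.apply, Move.appIn, Mem.mk.injEq, true_and]
    constructor
    · funext j
      by_cases e : j = i
      · subst e
        simp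
      · simp [e, Mem.scan]
    · funext j
      by_cases e : j = i
      · subst e
        simp
      · simp [e, Move.app]
  rw [e] at h' ⊢
  exact Run.act (a := fun r => (.stay, fun j => if j = i then f (r i) else (r j, .stay))) h h'

omit [DecidableEq T] in
theorem Run.inMove {d : Move} {h : ℕ} {St : T → List Bool} (hb : Bd S St) :
    Run (Frag.inMove d : Frag A T) x S (memOf h St) (memOf (d.appIn x.length h) St) := by
  have e : memOf (d.appIn x.length h) St = (memOf h St).apply x.length
      (d, fun j => ((memOf h St).scan j, .stay)) := by
    simp [Mem.apply, memOf, Mem.scan, Move.app]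
  rw [e]
  refine Run.act (a := fun r => (d, fun j => (r j, .stay))) (in_memOf.2 hb) ?_
  rw [← e]
  exact in_memOf.2 hb

theorem Run.pop {i : T} {h : ℕ} {St : T → List Bool} (hb : Bd S St) :
    Run (Frag.pop i : Frag A T) x S (memOf h St) (memOf h (update St i (St i).tail)) := by
  unfold Frag.pop
  refine Run.single (in_memOf.2 hb) (in_memOf.2 (hb.update i ?_)) rfl ?_ ?_
  · have := hb i
    rw [List.length_tail]
    omega
  · funext j
    by_cases e : j = i
    · subst e
      simp only [memOf, update_self]
      cases St j with
      | nil => simp [tapeOf]
      | cons b l =>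
        simp only [List.tail_cons, tapeOf, List.length_cons, Nat.cast_add, Nat.cast_one,
          update_idem]
        rw [← tapeOf_above l ((l.length : ℤ) + 1) (by omega), update_eq_self]
    · simp [memOf, e]
  · funext j
    by_cases e : j = i
    · subst e
      rw [scan_memOf]
      simp only [memOf, update_self]
      cases St j with
      | nil => simp [Move.app]
      | cons b l => simp [Move.app]
    · simp [memOf, e]

theorem Run.push {i : T} {b : Bool} {h : ℕ} {St : T → List Bool} (hb : Bd S St)
    (hi : (St i).length + 1 ≤ S) :
    Run (Frag.push i b : Frag A T) x S (memOf h St) (memOf h (update St i (b :: St i))) := by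
  have hin : Mem.In S (⟨h, fun j => tapeOf (St j),
      update (fun j => ((St j).length : ℤ)) i (((St i).length : ℤ) + 1)⟩ : Mem T) := by
    intro j
    by_cases e : j = i
    · subst e
      simp only [update_self]
      omega
    · simp only [update_of_ne e]
      have := hb j
      omega
  have hb' : Bd S (update St i (b :: St i)) := hb.update i (by simpa using hi)
  unfold Frag.push
  refine Run.seq (m' := ⟨h, fun j => tapeOf (St j),
      update (fun j => ((St j).length : ℤ)) i (((St i).length : ℤ) + 1)⟩)
    (Run.single (in_memOf.2 hb) hin rfl ?_ ?_)
    (Run.single hin (in_memOf.2 hb') rfl ?_ ?_)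
  · simp [memOf, Mem.scan]
  · rfl
  · funext j
    by_cases e : j = i
    · subst e
      simp [memOf, tapeOf]
    · simp [memOf, e]
  · funext j
    by_cases e : j = i
    · subst e
      simp [memOf, Move.app]
    · simp [memOf, e]

omit [DecidableEq T] in
theorem Run.cast {F : Frag A T} {m : Mem T} {h : ℕ} {St St' : T → List Bool}
    (hr : Run F x S m (memOf h St)) (e : St = St') : Run F x S m (memOf h St') := e ▸ hr

theorem Run.mv {i j : T} (hij : i ≠ j) {b b' : Bool} {h : ℕ} (k : ℕ) {St : T → List Bool}
    {l : List Bool} (hb : Bd S St) (hi : St i = List.replicate k b ++ l) (hl : l.head? ≠ some b)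
    (hj : (St j).length + k ≤ S) :
    Run (Frag.mv i j b b' : Frag A T) x S (memOf h St)
      (memOf h (update (update St i l) j (List.replicate k b' ++ St j))) := by
  induction k generalizing St with
  | zero =>
    have e : update (update St i l) j (List.replicate 0 b' ++ St j) = St := by
      simp only [List.replicate_zero, List.nil_append] at hi ⊢
      rw [← hi, update_eq_self, update_eq_self]
    rw [e]
    refine Run.loop_false ?_ (in_memOf.2 hb)
    rw [scan_memOf, hi]
    simpa using hl
  | succ k ih =>
    have h1 : Run (Frag.pop i : Frag A T) x S (memOf h St) (memOf h (update St i (St i).tail)) :=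
      Run.pop hb
    have hb1 : Bd S (update St i (St i).tail) := in_memOf.1 h1.in_right
    have h2 := Run.push (x := x) (i := j) (b := b') (h := h) hb1
      (by rw [update_of_ne hij.symm]; omega)
    have h3 := ih (in_memOf.1 h2.in_right)
      (by rw [update_of_ne hij, update_self, hi, List.replicate_succ]; rfl)
      (by rw [update_self, update_of_ne hij.symm, List.length_cons]; omega)
    refine Run.loop_true ?_ (h1.seq h2) (h3.cast ?_)
    · rw [scan_memOf, hi, List.replicate_succ]
      simp
    · funext t
      by_cases e : t = j
      · subst e
        simp [update_of_ne hij.symm, List.replicate_succ']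
      · by_cases e' : t = i
        · subst e'
          simp [update_of_ne e]
        · simp [update_of_ne e, update_of_ne e']

/-- The value of a word in bijective base two, lowest digit first. -/
def bval : List Bool → ℕ
  | [] => 0
  | b :: l => (bif b then 2 else 1) + 2 * bval l

theorem bval_nil : bval [] = 0 := rfl

theorem bval_cons_true (l : List Bool) : bval (true :: l) = 2 + 2 * bval l := rfl

theorem bval_cons_false (l : List Bool) : bval (false :: l) = 1 + 2 * bval l := rfl

theorem bval_true (k : ℕ) (l : List Bool) :
    bval (List.replicate k true ++ l) + 2 = 2 ^ k * (bval l + 2) := by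
  induction k with
  | zero => simp
  | succ k ih =>
    rw [List.replicate_succ, List.cons_append, bval_cons_true, pow_succ', mul_assoc, ← ih]
    omega

theorem bval_false (k : ℕ) (l : List Bool) :
    bval (List.replicate k false ++ l) + 1 = 2 ^ k * (bval l + 1) := by
  induction k with
  | zero => simp
  | succ k ih =>
    rw [List.replicate_succ, List.cons_append, bval_cons_false, pow_succ', mul_assoc, ← ih]
    omega

theorem two_pow_length_le (l : List Bool) : 2 ^ l.length ≤ bval l + 1 := by
  induction l with
  | nil => simp [bval]
  | cons b l ih =>
    rw [List.length_cons, pow_succ]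
    cases b
    · rw [bval_cons_false]
      omega
    · rw [bval_cons_true]
      omega

theorem length_le_of_bval_le {l : List Bool} {B : ℕ} (h : bval l ≤ B) :
    l.length ≤ Nat.log 2 B + 1 := by
  have h1 := two_pow_length_le l
  have h2 := Nat.lt_pow_succ_log_self (by norm_num : 1 < 2) B
  exact (Nat.pow_le_pow_iff_right (by norm_num : 1 < 2)).1 (by omega)

theorem bval_eq_zero {l : List Bool} : bval l = 0 ↔ l = [] := by
  cases l with
  | nil => simp [bval]
  | cons b l => cases b <;> simp [bval]

theorem exists_replicate (b : Bool) (l : List Bool) :
    ∃ k l', l = List.replicate k b ++ l' ∧ (l' = [] ∨ ∃ l'', l' = (!b) :: l'') := by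
  induction l with
  | nil => exact ⟨0, [], rfl, .inl rfl⟩
  | cons a l ih =>
    by_cases e : a = b
    · obtain ⟨k, l', h, h'⟩ := ih
      exact ⟨k + 1, l', by rw [List.replicate_succ, List.cons_append, ← h, e], h'⟩
    · refine ⟨0, a :: l, rfl, .inr ⟨l, ?_⟩⟩
      cases a <;> cases b <;> simp_all

theorem update_three {i j : T} (hij : i ≠ j) (St : T → List Bool) (hj : St j = [])
    (u v w : List Bool) : update (update (update (update St i u) j v) j []) i w = update St i w := by
  funext t
  by_cases e : t = i
  · subst e
    simp
  · by_cases e' : t = j
    · subst e'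
      simp [update_of_ne e, hj]
    · simp [update_of_ne e, update_of_ne e']

theorem Run.inc {i j : T} (hij : i ≠ j) {h B : ℕ} {St : T → List Bool} (hb : Bd S St)
    (hj : St j = []) (hB : bval (St i) + 1 ≤ B) (hS : Nat.log 2 B + 1 ≤ S) :
    ∃ l, bval l = bval (St i) + 1 ∧
      Run (Frag.inc i j : Frag A T) x S (memOf h St) (memOf h (update St i l)) := by
  obtain ⟨k, l, hi, hl⟩ := exists_replicate true (St i)
  have hk : k + l.length ≤ S := by
    have := hb i
    rwa [hi, List.length_append, List.length_replicate] at this
  have h1 := Run.mv (x := x) hij (b := true) (b' := false) (h := h) k hb hi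
    (by rcases hl with rfl | ⟨l', rfl⟩ <;> simp) (by rw [hj]; simp; omega)
  rw [hj, List.append_nil] at h1
  set St1 := update (update St i l) j (List.replicate k false) with hSt1
  have hb1 : Bd S St1 := in_memOf.1 h1.in_right
  have e1 : St1 i = l := by simp [hSt1, update_of_ne hij]
  have key : ∀ l' : List Bool, bval (List.replicate k false ++ l') = bval (St i) + 1 →
      (l'.length ≤ S → Run (Frag.cond (fun _ r => (r i).isSome)
        ((Frag.pop i).seq (Frag.push i true)) (Frag.push i false) : Frag A T) x S (memOf h St1)
        (memOf h (update St1 i l'))) →
      ∃ l, bval l = bval (St i) + 1 ∧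
        Run (Frag.inc i j : Frag A T) x S (memOf h St) (memOf h (update St i l)) := by
    intro l' hv hr
    have hlen := length_le_of_bval_le (hv.le.trans hB)
    rw [List.length_append, List.length_replicate] at hlen
    have h2 := hr (by omega)
    have h3 := Run.mv (x := x) hij.symm (b := false) (b' := false) (h := h) (l := []) k
      (in_memOf.1 h2.in_right) (by simp [hSt1, update_of_ne hij.symm]) (by simp)
      (by rw [update_self]; omega)
    refine ⟨_, hv, h1.seq (h2.seq (h3.cast ?_))⟩
    rw [update_self, hSt1, update_comm hij.symm (List.replicate k false) l' (update St i l),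
      update_idem (a := i), update_three hij St hj]
  have hv := bval_true k l
  rw [← hi] at hv
  rcases hl with rfl | ⟨l', rfl⟩
  · refine key [false] ?_ fun hlen => ?_
    · have := bval_false k [false]
      simp only [bval_nil, bval_cons_false] at this hv
      omega
    · refine Run.cond_false (by rw [scan_memOf, e1]; rfl) ?_
      have := Run.push (x := x) (i := i) (b := false) (h := h) hb1 (by rw [e1]; exact hlen)
      rwa [e1] at this
  · refine key (true :: l') ?_ fun hlen => ?_
    · have := bval_false k (true :: l')
      simp only [bval_cons_false, bval_cons_true, Bool.not_true] at this hv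
      rw [show 2 + 2 * bval l' + 1 = 1 + 2 * bval l' + 2 by omega] at this
      omega
    · refine Run.cond_true (by rw [scan_memOf, e1]; rfl) ?_
      have h2 := Run.pop (x := x) (i := i) (h := h) hb1
      have h3 := Run.push (x := x) (i := i) (b := true) (h := h) (in_memOf.1 h2.in_right)
        (by rw [update_self, e1]; exact hlen)
      rw [update_self, update_idem] at h3
      have := h2.seq h3
      rwa [e1] at this

theorem Run.dec {i j : T} (hij : i ≠ j) {h : ℕ} {St : T → List Bool} (hb : Bd S St)
    (hj : St j = []) :
    ∃ l, bval l = bval (St i) - 1 ∧
      Run (Frag.dec i j : Frag A T) x S (memOf h St) (memOf h (update St i l)) := by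
  obtain ⟨k, l, hi, hl⟩ := exists_replicate false (St i)
  have hk : k + l.length ≤ S := by
    have := hb i
    rwa [hi, List.length_append, List.length_replicate] at this
  have h1 := Run.mv (x := x) hij (b := false) (b' := false) (h := h) k hb hi
    (by rcases hl with rfl | ⟨l', rfl⟩ <;> simp) (by rw [hj]; simp; omega)
  rw [hj, List.append_nil] at h1
  set St1 := update (update St i l) j (List.replicate k false) with hSt1
  have hb1 : Bd S St1 := in_memOf.1 h1.in_right
  have e1 : St1 i = l := by simp [hSt1, update_of_ne hij]
  have e2 : St1 j = List.replicate k false := by simp [hSt1]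
  have key : ∀ (k' : ℕ) (l' : List Bool), k' + l'.length ≤ S →
      bval (List.replicate k' true ++ l') = bval (St i) - 1 →
      Run (Frag.cond (fun _ r => (r i).isSome)
        ((Frag.pop i).seq (Frag.push i false)) (Frag.pop j) : Frag A T) x S (memOf h St1)
        (memOf h (update (update St i l') j (List.replicate k' false))) →
      ∃ l, bval l = bval (St i) - 1 ∧
        Run (Frag.dec i j : Frag A T) x S (memOf h St) (memOf h (update St i l)) := by
    intro k' l' hlen hv h2
    have h3 := Run.mv (x := x) hij.symm (b := false) (b' := true) (h := h) (l := []) k'
      (in_memOf.1 h2.in_right) (by simp) (by simp)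
      (by rw [update_of_ne hij, update_self]; omega)
    refine ⟨_, hv, h1.seq (h2.seq (h3.cast ?_))⟩
    rw [update_of_ne hij, update_self, update_three hij St hj]
  have hv := bval_false k l
  rw [← hi] at hv
  rcases hl with rfl | ⟨l', rfl⟩
  · refine key (k - 1) [] (by simp at hk ⊢; omega) ?_ ?_
    · have := bval_true (k - 1) []
      simp only [bval] at this hv
      cases k with
      | zero => simp at hv ⊢; simp [bval, hv]
      | succ k =>
        rw [pow_succ] at hv
        simp only [Nat.add_sub_cancel] at this ⊢
        omega
    · refine Run.cond_false (by rw [scan_memOf, e1]; rfl) ?_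
      have := Run.pop (x := x) (i := j) (h := h) hb1
      rwa [e2, List.tail_replicate, hSt1, update_idem] at this
  · refine key k (false :: l') hk ?_ ?_
    · have := bval_true k (false :: l')
      simp only [bval_cons_false, bval_cons_true, Bool.not_false] at this hv
      rw [show 2 + 2 * bval l' + 1 = 1 + 2 * bval l' + 2 by omega] at hv
      omega
    · refine Run.cond_true (by rw [scan_memOf, e1]; rfl) ?_
      have h2 := Run.pop (x := x) (i := i) (h := h) hb1
      have h3 := Run.push (x := x) (i := i) (b := false) (h := h) (in_memOf.1 h2.in_right)
        (by rw [update_self, e1]; simp at hk ⊢; omega)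
      rw [update_self, update_idem] at h3
      have := h2.seq h3
      rwa [e1, List.tail_cons, hSt1, update_comm hij.symm, update_idem] at this

end Vale.Agent.Lib.Space
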