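import Vale.Agent.Lib.Space.Counter
import Vale.Agent.Lib.Space.Stack

/-!
Compilation of counter programs into multitape machines: if all increments give values at most
`B`, the machine uses `O(log B)` cells.
-/

namespace Vale.Agent.Lib.Space

open Function

variable {A : Type} {x : List A}

/-- A strict upper bound for the registers which occur in a program. -/
def CProg.bound : CProg A → ℕ
  | .skip => 0
  | .inc i => i + 1
  | .dec i => i + 1
  | .left => 0
  | .right => 0
  | .seq p q => max p.bound q.bound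
  | .ifz i p q => max (i + 1) (max p.bound q.bound)
  | .ifin _ p q => max p.bound q.bound
  | .loop i p => max (i + 1) p.bound

/-- The tape of a register. -/
def regTape (k i : ℕ) : Option (Fin k) := if h : i < k then some ⟨i, h⟩ else none

theorem regTape_of_lt {k i : ℕ} (h : i < k) : regTape k i = some ⟨i, h⟩ := dif_pos h

/-- The machine of a program. -/
def CProg.frag (k : ℕ) : CProg A → Frag A (Option (Fin k))
  | .skip => .skip
  | .inc i => .inc (regTape k i) none
  | .dec i => .dec (regTape k i) none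
  | .left => .inMove .left
  | .right => .inMove .right
  | .seq p q => (p.frag k).seq (q.frag k)
  | .ifz i p q => .cond (fun _ r => (r (regTape k i)).isSome) (q.frag k) (p.frag k)
  | .ifin t p q => .cond (fun a _ => t a) (p.frag k) (q.frag k)
  | .loop i p => .loop (fun r => (r (regTape k i)).isSome) (p.frag k)

/-- The stacks represent the registers. -/
def RegRep (k : ℕ) (s : ℕ → ℕ) (St : Option (Fin k) → List Bool) : Prop :=
  St none = [] ∧ ∀ i : Fin k, bval (St (some i)) = s i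

theorem RegRep.update {k : ℕ} {s : ℕ → ℕ} {St : Option (Fin k) → List Bool} (h : RegRep k s St)
    {i : ℕ} (hi : i < k) (l : List Bool) :
    RegRep k (update s i (bval l)) (update St (some ⟨i, hi⟩) l) := by
  refine ⟨by simpa using h.1, fun j => ?_⟩
  by_cases e : j = ⟨i, hi⟩
  · subst e
    simp
  · rw [update_of_ne (by simpa using e), update_of_ne (fun e' => e (Fin.ext e'))]
    exact h.2 j

theorem RegRep.scan {k : ℕ} {s : ℕ → ℕ} {St : Option (Fin k) → List Bool} (h : RegRep k s St)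
    {i : ℕ} (hi : i < k) (a : ℕ) :
    ((memOf a St).scan (regTape k i)).isSome = decide (s i ≠ 0) := by
  rw [scan_memOf, regTape_of_lt hi, ← h.2 ⟨i, hi⟩]
  cases St (some ⟨i, hi⟩) with
  | nil => simp [bval_nil]
  | cons b l => simp [bval_eq_zero]

theorem CEval.run {B S k : ℕ} (hS : Nat.log 2 B + 1 ≤ S) {p : CProg A} {c c' : ℕ × (ℕ → ℕ)}
    (h : CEval x B p c c') (hk : p.bound ≤ k) {St : Option (Fin k) → List Bool}
    (hr : RegRep k c.2 St) (hb : Bd S St) :
    ∃ St', RegRep k c'.2 St' ∧ Run (p.frag k) x S (memOf c.1 St) (memOf c'.1 St') := by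
  induction h generalizing St with
  | skip c => exact ⟨St, hr, Run.skip (in_memOf.2 hb)⟩
  | inc i h s hB =>
    have hi : i < k := hk
    have e : bval (St (some ⟨i, hi⟩)) = s i := hr.2 ⟨i, hi⟩
    obtain ⟨l, hl, hrun⟩ := Run.inc (x := x) (i := some ⟨i, hi⟩) (j := none) (by simp) (h := h)
      hb hr.1 (by rw [e]; exact hB) hS
    refine ⟨_, ?_, by rw [CProg.frag, regTape_of_lt hi]; exact hrun⟩
    have := hr.update hi l
    rwa [hl, e] at this
  | dec i h s =>
    have hi : i < k := hk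
    have e : bval (St (some ⟨i, hi⟩)) = s i := hr.2 ⟨i, hi⟩
    obtain ⟨l, hl, hrun⟩ := Run.dec (x := x) (i := some ⟨i, hi⟩) (j := none) (by simp) (h := h)
      hb hr.1
    refine ⟨_, ?_, by rw [CProg.frag, regTape_of_lt hi]; exact hrun⟩
    have := hr.update hi l
    rwa [hl, e] at this
  | left h s => exact ⟨St, hr, Run.inMove (d := .left) hb⟩
  | right h s => exact ⟨St, hr, Run.inMove (d := .right) hb⟩
  | seq _ _ ih ih' =>
    obtain ⟨St1, hr1, h1⟩ := ih ((le_max_left _ _).trans hk) hr hb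
    obtain ⟨St2, hr2, h2⟩ := ih' ((le_max_right _ _).trans hk) hr1 (in_memOf.1 h1.in_right)
    exact ⟨St2, hr2, h1.seq h2⟩
  | @ifz_zero i p q c c' h0 _ ih =>
    have hi : i < k := (le_max_left _ _).trans hk
    obtain ⟨St1, hr1, h1⟩ := ih ((le_max_left _ _).trans ((le_max_right _ _).trans hk)) hr hb
    exact ⟨St1, hr1, Run.cond_false (by rw [hr.scan hi]; simp [h0]) h1⟩
  | @ifz_pos i p q c c' h0 _ ih =>
    have hi : i < k := (le_max_left _ _).trans hk
    obtain ⟨St1, hr1, h1⟩ := ih ((le_max_right _ _).trans ((le_max_right _ _).trans hk)) hr hb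
    exact ⟨St1, hr1, Run.cond_true (by rw [hr.scan hi]; simp [h0]) h1⟩
  | ifin_true h0 _ ih =>
    obtain ⟨St1, hr1, h1⟩ := ih ((le_max_left _ _).trans hk) hr hb
    exact ⟨St1, hr1, Run.cond_true h0 h1⟩
  | ifin_false h0 _ ih =>
    obtain ⟨St1, hr1, h1⟩ := ih ((le_max_right _ _).trans hk) hr hb
    exact ⟨St1, hr1, Run.cond_false h0 h1⟩
  | @loop_zero i p c h0 =>
    have hi : i < k := (le_max_left _ _).trans hk
    exact ⟨St, hr, Run.loop_false (by rw [hr.scan hi]; simp [h0]) (in_memOf.2 hb)⟩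
  | @loop_pos i p c c' c'' h0 _ _ ih ih' =>
    have hi : i < k := (le_max_left _ _).trans hk
    obtain ⟨St1, hr1, h1⟩ := ih ((le_max_right _ _).trans hk) hr hb
    obtain ⟨St2, hr2, h2⟩ := ih' hk hr1 (in_memOf.1 h1.in_right)
    exact ⟨St2, hr2, Run.loop_true (by rw [hr.scan hi]; simp [h0]) h1 h2⟩

/-- Each counter program is simulated by a multitape machine in space `O(log B)`; the machine
accepts iff the register `0` is not zero at the end. -/
theorem CProg.exists_multiTape (p : CProg A) : ∃ (M : MultiTape A) (C : ℕ),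
    ∀ (x : List A) (B : ℕ) (c' : ℕ × (ℕ → ℕ)), CEval x B p (0, fun _ => 0) c' →
      (∃ τ, M.act x (M.conf x τ) = none ∧ ((M.conf x τ).state ∈ M.accept ↔ c'.2 0 ≠ 0)) ∧
      M.UsesAtMost x ((C * (Nat.log 2 B + 1) : ℕ) : ℝ) := by
  set k := p.bound + 1 with hk
  refine ⟨((p.frag k).final fun r => (r (regTape k 0)).isSome).toMT {.inr true},
    2 * Fintype.card (Option (Fin k)), fun x B c' h => ?_⟩
  obtain ⟨St, hr, hrun⟩ := h.run (S := Nat.log 2 B + 1) (k := k) le_rfl (by omega)
    (St := fun _ => []) ⟨rfl, fun _ => rfl⟩ (fun _ => Nat.zero_le _)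
  obtain ⟨⟨τ, h1, h2⟩, F, hF, hF'⟩ := Run.toMT (fun r => (r (regTape k 0)).isSome) hrun
  refine ⟨⟨τ, h1, h2.trans ?_⟩, F, hF.trans ?_, hF'⟩
  · rw [hr.scan (by omega)]
    simp
  · have : Fintype.card (Option (Fin k)) * (Nat.log 2 B + 1 + 1) ≤
        2 * Fintype.card (Option (Fin k)) * (Nat.log 2 B + 1) := by
      rw [mul_comm 2, mul_assoc]
      exact Nat.mul_le_mul_left _ (by omega)
    exact_mod_cast this

theorem MultiTape.UsesAtMost.mono {M : MultiTape A} {x : List A} {S S' : ℝ}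
    (h : M.UsesAtMost x S) (hS : S ≤ S') : M.UsesAtMost x S' :=
  let ⟨F, hF, hF'⟩ := h
  ⟨F, hF.trans hS, hF'⟩

/-- A language decided by a counter program with values at most `B x` is in `SPACE[s]` if
`log (B x) = O(s |x|)`. -/
theorem mem_SPACE_of_cprog (L : Language A) (s : ℕ → ℝ) (p : CProg A) (B : List A → ℕ)
    (h : ∀ x, ∃ c', CEval x (B x) p (0, fun _ => 0) c' ∧ (c'.2 0 ≠ 0 ↔ x ∈ L))
    (hB : ∃ (C : ℝ) (N : ℕ), ∀ x : List A, N ≤ x.length →
      ((Nat.log 2 (B x) + 1 : ℕ) : ℝ) ≤ C * s x.length) : L ∈ SPACE A s := by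
  obtain ⟨M, C, hM⟩ := p.exists_multiTape
  obtain ⟨C', N, hC'⟩ := hB
  refine ⟨M, fun x => ?_, C * C', N, fun x hx => ?_⟩
  · obtain ⟨c', hc, hL⟩ := h x
    obtain ⟨τ, h1, h2⟩ := (hM x _ c' hc).1
    exact ⟨τ, h1, h2.trans hL⟩
  · obtain ⟨c', hc, -⟩ := h x
    refine (hM x _ c' hc).2.mono ?_
    rw [Nat.cast_mul, mul_assoc]
    exact mul_le_mul_of_nonneg_left (hC' x hx) (Nat.cast_nonneg C)

/-- Monotonicity of the space classes. -/
theorem SPACE_subset_of_le {s s' : ℕ → ℝ}
    (h : ∃ (C : ℝ) (N : ℕ), ∀ n, N ≤ n → 0 ≤ s n ∧ s n ≤ C * s' n) : SPACE A s ⊆ SPACE A s' := by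
  rintro L ⟨M, hM, C, N, hC⟩
  obtain ⟨C', N', hC'⟩ := h
  refine ⟨M, hM, max C 0 * C', max N N', fun x hx => (hC x (le_of_max_le_left hx)).mono ?_⟩
  obtain ⟨h0, h1⟩ := hC' _ (le_of_max_le_right hx)
  rw [mul_assoc]
  exact (mul_le_mul_of_nonneg_right (le_max_left _ _) h0).trans
    (mul_le_mul_of_nonneg_left h1 (le_max_right _ _))

end Vale.Agent.Lib.Space
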