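import Vale.Agent.Lib.Space.Defs

/-!
Counter programs with a read-only input tape. `CEval x B p c c'`: on the input `x` the program `p`
leads from `c` to `c'` (position of the input head, values of the registers), and the result of
each increment is at most `B`.
-/

namespace Vale.Agent.Lib.Space

/-- Counter programs. -/
inductive CProg (A : Type) : Type
  | skip : CProg A
  | inc : ℕ → CProg A
  | dec : ℕ → CProg A
  | left : CProg A
  | right : CProg A
  | seq : CProg A → CProg A → CProg A
  | ifz : ℕ → CProg A → CProg A → CProg A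
  | ifin : (InSym A → Bool) → CProg A → CProg A → CProg A
  | loop : ℕ → CProg A → CProg A

/-- Big-step semantics of counter programs, all increments give values at most `B`. -/
inductive CEval {A : Type} (x : List A) (B : ℕ) :
    CProg A → ℕ × (ℕ → ℕ) → ℕ × (ℕ → ℕ) → Prop
  | skip (c : ℕ × (ℕ → ℕ)) : CEval x B .skip c c
  | inc (i h : ℕ) (s : ℕ → ℕ) (hB : s i + 1 ≤ B) :
      CEval x B (.inc i) (h, s) (h, Function.update s i (s i + 1))
  | dec (i h : ℕ) (s : ℕ → ℕ) : CEval x B (.dec i) (h, s) (h, Function.update s i (s i - 1))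
  | left (h : ℕ) (s : ℕ → ℕ) : CEval x B .left (h, s) (h - 1, s)
  | right (h : ℕ) (s : ℕ → ℕ) : CEval x B .right (h, s) (min (h + 1) (x.length + 1), s)
  | seq {p q : CProg A} {c c' c'' : ℕ × (ℕ → ℕ)} :
      CEval x B p c c' → CEval x B q c' c'' → CEval x B (.seq p q) c c''
  | ifz_zero {i : ℕ} {p q : CProg A} {c c' : ℕ × (ℕ → ℕ)} :
      c.2 i = 0 → CEval x B p c c' → CEval x B (.ifz i p q) c c'
  | ifz_pos {i : ℕ} {p q : CProg A} {c c' : ℕ × (ℕ → ℕ)} :
      c.2 i ≠ 0 → CEval x B q c c' → CEval x B (.ifz i p q) c c'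
  | ifin_true {t : InSym A → Bool} {p q : CProg A} {c c' : ℕ × (ℕ → ℕ)} :
      t (inAt x c.1) = true → CEval x B p c c' → CEval x B (.ifin t p q) c c'
  | ifin_false {t : InSym A → Bool} {p q : CProg A} {c c' : ℕ × (ℕ → ℕ)} :
      t (inAt x c.1) = false → CEval x B q c c' → CEval x B (.ifin t p q) c c'
  | loop_zero {i : ℕ} {p : CProg A} {c : ℕ × (ℕ → ℕ)} : c.2 i = 0 → CEval x B (.loop i p) c c
  | loop_pos {i : ℕ} {p : CProg A} {c c' c'' : ℕ × (ℕ → ℕ)} :
      c.2 i ≠ 0 → CEval x B p c c' → CEval x B (.loop i p) c' c'' → CEval x B (.loop i p) c c''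

theorem CEval.mono {A : Type} {x : List A} {B B' : ℕ} (hB : B ≤ B') {p : CProg A}
    {c c' : ℕ × (ℕ → ℕ)} (h : CEval x B p c c') : CEval x B' p c c' := by
  induction h with
  | skip c => exact .skip c
  | inc i h s hs => exact .inc i h s (hs.trans hB)
  | dec i h s => exact .dec i h s
  | left h s => exact .left h s
  | right h s => exact .right h s
  | seq _ _ ih ih' => exact .seq ih ih'
  | ifz_zero h _ ih => exact .ifz_zero h ih
  | ifz_pos h _ ih => exact .ifz_pos h ih
  | ifin_true h _ ih => exact .ifin_true h ih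
  | ifin_false h _ ih => exact .ifin_false h ih
  | loop_zero h => exact .loop_zero h
  | loop_pos h _ _ ih ih' => exact .loop_pos h ih ih'

end Vale.Agent.Lib.Space
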