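import Mathlib.Computability.Language
import Mathlib.Data.Real.Basic
import Mathlib.Data.Finset.Card

/-!
One-tape Turing machines with their time classes, and multitape Turing machines with a read-only
input tape with their space classes.
-/

namespace Vale.Agent.Lib.Space

/-- Head moves. -/
inductive Move : Type
  | left
  | stay
  | right

/-- The new position of a head on a two-way infinite tape. -/
def Move.app : Move → ℤ → ℤ
  | .left, p => p - 1
  | .stay, p => p
  | .right, p => p + 1

/-- A deterministic one-tape Turing machine with input alphabet `A`. In the state `q`, reading the
symbol `a`, it has halted if `step q a = none`; if `step q a = some (q', b, m)` it goes to the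
state `q'`, writes `b` and moves the head according to `m`. -/
structure OneTape (A : Type) where
  /-- the tape alphabet -/
  Sym : Type
  /-- the states -/
  State : Type
  finSym : Finite Sym
  finState : Finite State
  /-- the blank symbol -/
  blank : Sym
  /-- the tape symbols of the input letters -/
  letter : A → Sym
  letter_inj : Function.Injective letter
  letter_ne_blank : ∀ a, letter a ≠ blank
  /-- the initial state -/
  start : State
  /-- the accepting states -/
  accept : Set State
  /-- the transition function -/
  step : State → Sym → Option (State × Sym × Move)

namespace OneTape

variable {A : Type}

/-- Configurations: the state, the contents of the two-way infinite tape, the head position. -/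
structure Conf (M : OneTape A) where
  /-- the state -/
  state : M.State
  /-- the contents of the tape -/
  tape : ℤ → M.Sym
  /-- the head position -/
  head : ℤ

/-- The next configuration (the same one if the machine has halted). -/
def next (M : OneTape A) (c : M.Conf) : M.Conf :=
  match M.step c.state (c.tape c.head) with
  | none => c
  | some (q, b, m) => ⟨q, Function.update c.tape c.head b, m.app c.head⟩

/-- The configuration after `τ` steps on the input `x`. At the start `x` is written in the cells
`0, 1, …`, all other cells are blank, and the head is on the cell `0`. -/
def conf (M : OneTape A) (x : List A) (τ : ℕ) : M.Conf :=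
  M.next^[τ]
    ⟨M.start, fun p => if 0 ≤ p then ((x[p.toNat]?).map M.letter).getD M.blank else M.blank, 0⟩

/-- The machine has halted in the configuration `c`. -/
def Halted (M : OneTape A) (c : M.Conf) : Prop := M.step c.state (c.tape c.head) = none

end OneTape

/-- `TIME₁[t]`: languages decided by a one-tape machine that halts within `t n` steps on every
input of length `n`. -/
def TIME1 (A : Type) (t : ℕ → ℕ) : Set (Language A) :=
  {L | ∃ M : OneTape A, ∀ x : List A, ∃ τ ≤ t x.length,
    M.Halted (M.conf x τ) ∧ ((M.conf x τ).state ∈ M.accept ↔ x ∈ L)}

/-- The symbols on the read-only input tape: the two endmarkers and the letters. -/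
inductive InSym (A : Type) : Type
  | first : InSym A
  | last : InSym A
  | letter : A → InSym A

/-- The input tape for the input `x` of length `n`: the left endmarker in the cell `0`, the letters
of `x` in the cells `1, …, n`, the right endmarker in the cell `n + 1`. -/
def inAt {A : Type} (x : List A) : ℕ → InSym A
  | 0 => .first
  | p + 1 => ((x[p]?).map InSym.letter).getD .last

/-- The new position of the input head, which cannot leave the cells `0, …, n + 1`. -/
def Move.appIn : Move → ℕ → ℕ → ℕ
  | .left, _, p => p - 1
  | .stay, _, p => p
  | .right, n, p => min (p + 1) (n + 1)

/-- A deterministic multitape Turing machine with input alphabet `A`, a read-only input tape and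
finitely many two-way infinite work tapes. In the state `q`, reading `a` on the input tape and the
symbols `r` on the work tapes, it has halted if `step q a r = none`; if
`step q a r = some (q', m, w)` it goes to the state `q'`, moves the input head according to `m`,
and on the work tape `i` writes `(w i).1` and moves the head according to `(w i).2`. -/
structure MultiTape (A : Type) where
  /-- the alphabet of the work tapes -/
  Sym : Type
  /-- the index set of the work tapes -/
  Tape : Type
  /-- the states -/
  State : Type
  finSym : Finite Sym
  finTape : Finite Tape
  finState : Finite State
  /-- the blank symbol -/
  blank : Sym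
  /-- the initial state -/
  start : State
  /-- the accepting states -/
  accept : Set State
  /-- the transition function -/
  step : State → InSym A → (Tape → Sym) → Option (State × Move × (Tape → Sym × Move))

namespace MultiTape

variable {A : Type}

/-- Configurations: the state, the position of the input head, the contents of the work tapes and
the positions of their heads. -/
structure Conf (M : MultiTape A) where
  /-- the state -/
  state : M.State
  /-- the position of the input head -/
  inHead : ℕ
  /-- the contents of the work tapes -/
  tape : M.Tape → ℤ → M.Sym
  /-- the positions of the heads on the work tapes -/
  head : M.Tape → ℤ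

/-- The action of the machine in the configuration `c`, on the input `x`. -/
def act (M : MultiTape A) (x : List A) (c : M.Conf) :
    Option (M.State × Move × (M.Tape → M.Sym × Move)) :=
  M.step c.state (inAt x c.inHead) fun i => c.tape i (c.head i)

/-- The next configuration (the same one if the machine has halted). -/
def next (M : MultiTape A) (x : List A) (c : M.Conf) : M.Conf :=
  match M.act x c with
  | none => c
  | some (q, m, w) =>
    ⟨q, m.appIn x.length c.inHead, fun i => Function.update (c.tape i) (c.head i) (w i).1,
      fun i => (w i).2.app (c.head i)⟩

/-- The configuration after `τ` steps on the input `x`. At the start the input head is on the left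
endmarker, the work tapes are blank and their heads are on the cell `0`. -/
def conf (M : MultiTape A) (x : List A) (τ : ℕ) : M.Conf :=
  (M.next x)^[τ] ⟨M.start, 0, fun _ _ => M.blank, fun _ => 0⟩

/-- The machine halts on every input, in an accepting state iff the input is in `L`. -/
def Decides (M : MultiTape A) (L : Language A) : Prop :=
  ∀ x : List A, ∃ τ, M.act x (M.conf x τ) = none ∧ ((M.conf x τ).state ∈ M.accept ↔ x ∈ L)

/-- On the input `x` the heads visit at most `S` cells of the work tapes. -/
def UsesAtMost (M : MultiTape A) (x : List A) (S : ℝ) : Prop :=
  ∃ F : Finset (M.Tape × ℤ), (F.card : ℝ) ≤ S ∧ ∀ τ i, (i, (M.conf x τ).head i) ∈ F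

end MultiTape

/-- `SPACE[s]`: languages decided by a multitape machine with a read-only input tape that uses
`O(s n)` cells of its work tapes on the inputs of length `n`. -/
def SPACE (A : Type) (s : ℕ → ℝ) : Set (Language A) :=
  {L | ∃ M : MultiTape A, M.Decides L ∧
    ∃ (C : ℝ) (N : ℕ), ∀ x : List A, N ≤ x.length → M.UsesAtMost x (C * s x.length)}

end Vale.Agent.Lib.Space
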