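import Vale.Agent.Lib.Space.Defs
import Mathlib.Data.Finite.Prod
import Mathlib.Data.Finite.Sum
import Mathlib.Data.Fintype.Option
import Mathlib.Data.Int.Interval
import Mathlib.Tactic.Ring
import Mathlib.Tactic.Linarith

/-!
Fragments of multitape machines over the work alphabet `Option Bool`, their combinations
(sequence, branching, loop), and the passage to `MultiTape`.
-/

namespace Vale.Agent.Lib.Space

/-- The memory of a machine: input head, work tapes, work heads. -/
structure Mem (T : Type) where
  /-- the position of the input head -/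
  inHead : ℕ
  /-- the work tapes -/
  tape : T → ℤ → Option Bool
  /-- the work heads -/
  head : T → ℤ

/-- Actions: a move of the input head, and for each work tape a symbol and a move. -/
abbrev Act (T : Type) : Type := Move × (T → Option Bool × Move)

/-- A machine without accepting states. -/
structure Frag (A T : Type) where
  /-- the states -/
  Q : Type
  fin : Finite Q
  /-- the initial state -/
  start : Q
  /-- the transition function -/
  step : Q → InSym A → (T → Option Bool) → Option (Q × Act T)

variable {A T : Type}

/-- The scanned symbols. -/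
def Mem.scan (m : Mem T) : T → Option Bool := fun i => m.tape i (m.head i)

/-- The memory after an action. -/
def Mem.apply (n : ℕ) (m : Mem T) (z : Act T) : Mem T :=
  ⟨z.1.appIn n m.inHead, fun i => Function.update (m.tape i) (m.head i) (z.2 i).1,
    fun i => (z.2 i).2.app (m.head i)⟩

/-- All work heads are in the cells `0, …, S`. -/
def Mem.In (S : ℕ) (m : Mem T) : Prop := ∀ i, 0 ≤ m.head i ∧ m.head i ≤ S

/-- The action which changes nothing. -/
def noop (r : T → Option Bool) : Act T := (.stay, fun i => (r i, .stay))

theorem Mem.apply_noop (n : ℕ) (m : Mem T) : m.apply n (noop m.scan) = m := by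
  cases m
  simp [Mem.apply, noop, Mem.scan, Move.appIn, Move.app]

/-- Runs of a fragment inside the cells `0, …, S`. -/
inductive Reach (F : Frag A T) (x : List A) (S : ℕ) : F.Q → Mem T → F.Q → Mem T → Prop
  | refl (q : F.Q) (m : Mem T) : m.In S → Reach F x S q m q m
  | step {q q' q'' : F.Q} {m m'' : Mem T} {z : Act T} : m.In S →
      F.step q (inAt x m.inHead) m.scan = some (q', z) →
      Reach F x S q' (m.apply x.length z) q'' m'' → Reach F x S q m q'' m''

variable {x : List A} {S : ℕ}

theorem Reach.trans {F : Frag A T} {q q' q'' : F.Q} {m m' m'' : Mem T}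
    (h : Reach F x S q m q' m') (h' : Reach F x S q' m' q'' m'') : Reach F x S q m q'' m'' := by
  induction h with
  | refl => exact h'
  | step hi hs _ ih => exact .step hi hs (ih h')

theorem Reach.in_left {F : Frag A T} {q q' : F.Q} {m m' : Mem T} (h : Reach F x S q m q' m') :
    m.In S := by
  cases h with
  | refl _ _ hi => exact hi
  | step hi _ _ => exact hi

theorem Reach.in_right {F : Frag A T} {q q' : F.Q} {m m' : Mem T} (h : Reach F x S q m q' m') :
    m'.In S := by
  induction h with
  | refl _ _ hi => exact hi
  | step _ _ _ ih => exact ih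

theorem Reach.jump {F : Frag A T} {q q' : F.Q} {m : Mem T} (hi : m.In S)
    (h : F.step q (inAt x m.inHead) m.scan = some (q', noop m.scan)) : Reach F x S q m q' m := by
  refine .step hi h ?_
  rw [Mem.apply_noop]
  exact .refl _ _ hi

theorem Reach.lift {F G : Frag A T} (e : F.Q → G.Q)
    (he : ∀ q a r q' z, F.step q a r = some (q', z) → G.step (e q) a r = some (e q', z))
    {q q' : F.Q} {m m' : Mem T} (h : Reach F x S q m q' m') : Reach G x S (e q) m (e q') m' := by
  induction h with
  | refl _ _ hi => exact .refl _ _ hi
  | step hi hs _ ih => exact .step hi (he _ _ _ _ _ hs) ih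

/-- The fragment leads from `m` to `m'` and stops, inside the cells `0, …, S`. -/
def Run (F : Frag A T) (x : List A) (S : ℕ) (m m' : Mem T) : Prop :=
  ∃ q, Reach F x S F.start m q m' ∧ F.step q (inAt x m'.inHead) m'.scan = none

theorem Run.in_left {F : Frag A T} {m m' : Mem T} (h : Run F x S m m') : m.In S :=
  let ⟨_, h, _⟩ := h
  h.in_left

theorem Run.in_right {F : Frag A T} {m m' : Mem T} (h : Run F x S m m') : m'.In S :=
  let ⟨_, h, _⟩ := h
  h.in_right

namespace Frag

/-- Do nothing. -/
def skip : Frag A T := ⟨Unit, inferInstance, (), fun _ _ _ => none⟩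

/-- One step. -/
def act (a : (T → Option Bool) → Act T) : Frag A T :=
  ⟨Bool, inferInstance, false, fun q _ r => bif q then none else some (true, a r)⟩

/-- Sequence. -/
def seq (F G : Frag A T) : Frag A T where
  Q := F.Q ⊕ G.Q
  fin := by
    have := F.fin
    have := G.fin
    infer_instance
  start := .inl F.start
  step := fun q a r =>
    match q with
    | .inl q =>
      match F.step q a r with
      | none => some (.inr G.start, noop r)
      | some (q', z) => some (.inl q', z)
    | .inr q => (G.step q a r).map fun y => (.inr y.1, y.2)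

/-- Branching. -/
def cond (c : InSym A → (T → Option Bool) → Bool) (F G : Frag A T) : Frag A T where
  Q := Option (F.Q ⊕ G.Q)
  fin := by
    have := F.fin
    have := G.fin
    infer_instance
  start := none
  step := fun q a r =>
    match q with
    | none => some (some (bif c a r then .inl F.start else .inr G.start), noop r)
    | some (.inl q) => (F.step q a r).map fun y => (some (.inl y.1), y.2)
    | some (.inr q) => (G.step q a r).map fun y => (some (.inr y.1), y.2)

/-- Loop. -/
def loop (c : (T → Option Bool) → Bool) (F : Frag A T) : Frag A T where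
  Q := Option F.Q
  fin := by
    have := F.fin
    infer_instance
  start := none
  step := fun q a r =>
    match q with
    | none => bif c r then some (some F.start, noop r) else none
    | some q =>
      match F.step q a r with
      | none => some (none, noop r)
      | some (q', z) => some (some q', z)

/-- Run `F`, then record the value of `c` in the state. -/
def final (F : Frag A T) (c : (T → Option Bool) → Bool) : Frag A T where
  Q := F.Q ⊕ Bool
  fin := by
    have := F.fin
    infer_instance
  start := .inl F.start
  step := fun q a r =>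
    match q with
    | .inl q =>
      match F.step q a r with
      | none => some (.inr (c r), noop r)
      | some (q', z) => some (.inl q', z)
    | .inr _ => none

end Frag

theorem Run.skip {m : Mem T} (h : m.In S) : Run (Frag.skip : Frag A T) x S m m :=
  ⟨(), .refl _ _ h, rfl⟩

theorem Run.act {a : (T → Option Bool) → Act T} {m : Mem T} (h : m.In S)
    (h' : (m.apply x.length (a m.scan)).In S) :
    Run (Frag.act a : Frag A T) x S m (m.apply x.length (a m.scan)) :=
  ⟨true, .step (q' := true) h rfl (.refl _ _ h'), rfl⟩

theorem Run.seq {F G : Frag A T} {m m' m'' : Mem T} (h : Run F x S m m') (h' : Run G x S m' m'') :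
    Run (F.seq G) x S m m'' := by
  obtain ⟨q, h, hq⟩ := h
  obtain ⟨q', h', hq'⟩ := h'
  refine ⟨.inr q', ?_, by simp [Frag.seq, hq']⟩
  refine (h.lift (G := F.seq G) Sum.inl ?_).trans
    ((Reach.jump (q' := Sum.inr G.start) h.in_right ?_).trans (h'.lift (G := F.seq G) Sum.inr ?_))
  · intro q a r q' z e
    simp [Frag.seq, e]
  · simp [Frag.seq, hq]
  · intro q a r q' z e
    simp [Frag.seq, e]

theorem Run.cond_true {c : InSym A → (T → Option Bool) → Bool} {F G : Frag A T} {m m' : Mem T}
    (hc : c (inAt x m.inHead) m.scan = true) (h : Run F x S m m') :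
    Run (Frag.cond c F G) x S m m' := by
  obtain ⟨q, h, hq⟩ := h
  refine ⟨some (.inl q), ?_, by simp [Frag.cond, hq]⟩
  refine (Reach.jump (q' := some (.inl F.start)) h.in_left ?_).trans
    (h.lift (G := Frag.cond c F G) (fun q => some (.inl q)) ?_)
  · simp [Frag.cond, hc]
  · intro q a r q' z e
    simp [Frag.cond, e]

theorem Run.cond_false {c : InSym A → (T → Option Bool) → Bool} {F G : Frag A T} {m m' : Mem T}
    (hc : c (inAt x m.inHead) m.scan = false) (h : Run G x S m m') :
    Run (Frag.cond c F G) x S m m' := by
  obtain ⟨q, h, hq⟩ := h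
  refine ⟨some (.inr q), ?_, by simp [Frag.cond, hq]⟩
  refine (Reach.jump (q' := some (.inr G.start)) h.in_left ?_).trans
    (h.lift (G := Frag.cond c F G) (fun q => some (.inr q)) ?_)
  · simp [Frag.cond, hc]
  · intro q a r q' z e
    simp [Frag.cond, e]

theorem Run.loop_false {c : (T → Option Bool) → Bool} {F : Frag A T} {m : Mem T}
    (hc : c m.scan = false) (h : m.In S) : Run (Frag.loop c F) x S m m :=
  ⟨none, .refl _ _ h, by simp [Frag.loop, hc]⟩

theorem Run.loop_true {c : (T → Option Bool) → Bool} {F : Frag A T} {m m' m'' : Mem T}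
    (hc : c m.scan = true) (h : Run F x S m m') (h' : Run (Frag.loop c F) x S m' m'') :
    Run (Frag.loop c F) x S m m'' := by
  obtain ⟨q, h, hq⟩ := h
  obtain ⟨q', h', hq'⟩ := h'
  refine ⟨q', ?_, hq'⟩
  refine (Reach.jump (q' := some F.start) h.in_left ?_).trans
    ((h.lift (G := Frag.loop c F) some ?_).trans
      ((Reach.jump (q' := none) h.in_right ?_).trans h'))
  · simp [Frag.loop, hc]
  · intro q a r q' z e
    simp [Frag.loop, e]
  · simp [Frag.loop, hq]

theorem Run.final {F : Frag A T} (c : (T → Option Bool) → Bool) {m m' : Mem T}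
    (h : Run F x S m m') :
    Reach (F.final c) x S (F.final c).start m (.inr (c m'.scan)) m' := by
  obtain ⟨q, h, hq⟩ := h
  refine (h.lift (G := F.final c) Sum.inl ?_).trans (Reach.jump h.in_right ?_)
  · intro q a r q' z e
    simp [Frag.final, e]
  · simp [Frag.final, hq]

/-- The multitape machine of a fragment. -/
def Frag.toMT [Finite T] (F : Frag A T) (acc : Set F.Q) : MultiTape A where
  Sym := Option Bool
  Tape := T
  State := F.Q
  finSym := inferInstance
  finTape := inferInstance
  finState := F.fin
  blank := none
  start := F.start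
  accept := acc
  step := F.step

/-- The configuration with given state and memory. -/
def Frag.cf [Finite T] (F : Frag A T) (acc : Set F.Q) (q : F.Q) (m : Mem T) : (F.toMT acc).Conf :=
  ⟨q, m.inHead, m.tape, m.head⟩

theorem Reach.iterate [Finite T] {F : Frag A T} (acc : Set F.Q) {q q' : F.Q} {m m' : Mem T}
    (h : Reach F x S q m q' m') :
    ∃ τ, ((F.toMT acc).next x)^[τ] (F.cf acc q m) = F.cf acc q' m' ∧
      ∀ σ ≤ τ, ∀ i, 0 ≤ (((F.toMT acc).next x)^[σ] (F.cf acc q m)).head i ∧
        (((F.toMT acc).next x)^[σ] (F.cf acc q m)).head i ≤ S := by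
  induction h with
  | refl q m hi =>
    refine ⟨0, rfl, fun σ hσ i => ?_⟩
    obtain rfl : σ = 0 := by omega
    exact hi i
  | @step q q' q'' m m'' z hi hs _ ih =>
    obtain ⟨τ, h1, h2⟩ := ih
    have hn : (F.toMT acc).next x (F.cf acc q m) = F.cf acc q' (m.apply x.length z) := by
      have ha : (F.toMT acc).act x (F.cf acc q m) = some (q', z) := hs
      obtain ⟨mv, w⟩ := z
      unfold MultiTape.next
      rw [ha]
      rfl
    refine ⟨τ + 1, by rw [Function.iterate_succ_apply, hn, h1], fun σ hσ i => ?_⟩
    cases σ with
    | zero => exact hi i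
    | succ σ =>
      rw [Function.iterate_succ_apply, hn]
      exact h2 σ (by omega) i

/-- A run of a fragment from the empty memory gives a halting run of a multitape machine. -/
theorem Run.toMT [Fintype T] {F : Frag A T} (c : (T → Option Bool) → Bool) {m' : Mem T}
    (h : Run F x S ⟨0, fun _ _ => none, fun _ => 0⟩ m') :
    (∃ τ, ((F.final c).toMT {.inr true}).act x (((F.final c).toMT {.inr true}).conf x τ) = none ∧
      ((((F.final c).toMT {.inr true}).conf x τ).state ∈ ((F.final c).toMT {.inr true}).accept ↔
        c m'.scan = true)) ∧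
      ((F.final c).toMT {.inr true}).UsesAtMost x ((Fintype.card T * (S + 1) : ℕ) : ℝ) := by
  obtain ⟨τ, h1, h2⟩ := (h.final c).iterate {.inr true}
  set M := (F.final c).toMT {.inr true} with hM
  have hconf : ∀ σ, M.conf x σ = (M.next x)^[σ]
      ((F.final c).cf {.inr true} (F.final c).start ⟨0, fun _ _ => none, fun _ => 0⟩) :=
    fun _ => rfl
  have hact : M.act x (M.conf x τ) = none := by
    rw [hconf, h1]
    rfl
  have hstay : ∀ d, M.conf x (τ + d) = M.conf x τ := by
    intro d
    induction d with
    | zero => rfl
    | succ d ih =>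
      have : M.conf x (τ + (d + 1)) = M.next x (M.conf x (τ + d)) := by
        unfold MultiTape.conf
        rw [← add_assoc, Function.iterate_succ_apply']
      rw [this, ih]
      unfold MultiTape.next
      rw [hact]
  refine ⟨⟨τ, hact, ?_⟩, (Finset.univ : Finset T) ×ˢ Finset.Icc (0 : ℤ) S, ?_, fun σ i => ?_⟩
  · rw [hconf, h1]
    change (Sum.inr (c m'.scan) : F.Q ⊕ Bool) = Sum.inr true ↔ _
    simp
  · have : ((Finset.univ : Finset T) ×ˢ Finset.Icc (0 : ℤ) S).card = Fintype.card T * (S + 1) := by
      rw [Finset.card_product, Finset.card_univ, Int.card_Icc]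
      congr 1
    exact le_of_eq (by exact_mod_cast this)
  · have : 0 ≤ (M.conf x σ).head i ∧ (M.conf x σ).head i ≤ S := by
      rcases le_total σ τ with hσ | hσ
      · exact h2 σ hσ i
      · obtain ⟨d, rfl⟩ := Nat.exists_eq_add_of_le hσ
        rw [hstay]
        exact h2 τ le_rfl i
    exact Finset.mem_product.2 ⟨Finset.mem_univ _, Finset.mem_Icc.2 this⟩

end Vale.Agent.Lib.Space
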