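import Vale.Agent.Lib.Space.Arith

/-!
The typed layer. Values are coded by natural numbers. `SP B f`: the function `f` is computed by a
counter program whose registers are polynomially bounded in the code of the argument and in the
budget `B.b x` of the input word `x`. The input word is a value of the type `Inp A`, which has no
code: it is read from the input tape.
-/

namespace Vale.Agent.Lib.Space

open Function

/-- Types with codes. `ok x a` says that the value `a` is meaningful when the input word is `x`. -/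
class Enc (A : Type) (α : Type) where
  /-- the code -/
  enc : α → ℕ
  /-- compatibility with the input word -/
  ok : List A → α → Prop

/-- Types all of whose values are meaningful for all input words. -/
class Pure (A : Type) (α : Type) [Enc A α] : Prop where
  /-- all values are meaningful -/
  ok : ∀ (x : List A) (a : α), Enc.ok x a

/-- The type of the input word. -/
abbrev Inp (A : Type) : Type := List A

/-- A budget: a number for every input word. -/
structure Bud (A : Type) where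
  /-- the budget of an input word -/
  b : List A → ℕ

variable {A : Type} {α β γ δ : Type}

instance : Enc A ℕ := ⟨fun n => n, fun _ _ => True⟩
instance : Enc A Bool := ⟨fun b => b.toNat, fun _ _ => True⟩
instance : Enc A Unit := ⟨fun _ => 0, fun _ _ => True⟩
instance : Enc A (Inp A) := ⟨fun _ => 0, fun x y => y = x⟩
instance [Enc A α] [Enc A β] : Enc A (α × β) :=
  ⟨fun p => Nat.pair (Enc.enc A p.1) (Enc.enc A p.2), fun x p => Enc.ok x p.1 ∧ Enc.ok x p.2⟩

instance : Pure A ℕ := ⟨fun _ _ => trivial⟩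
instance : Pure A Bool := ⟨fun _ _ => trivial⟩
instance : Pure A Unit := ⟨fun _ _ => trivial⟩
instance [Enc A α] [Enc A β] [Pure A α] [Pure A β] : Pure A (α × β) :=
  ⟨fun x p => ⟨Pure.ok x p.1, Pure.ok x p.2⟩⟩

@[simp] theorem enc_nat (n : ℕ) : Enc.enc A n = n := rfl
theorem enc_bool (b : Bool) : Enc.enc A b = b.toNat := rfl
theorem enc_unit (u : Unit) : Enc.enc A u = 0 := rfl
theorem enc_inp (u : Inp A) : Enc.enc A u = 0 := rfl
theorem ok_inp (x : List A) (u : Inp A) : Enc.ok x u ↔ u = x := Iff.rfl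

variable [Enc A α] [Enc A β] [Enc A γ] [Enc A δ]

theorem enc_pair (a : α) (b : β) : Enc.enc A (a, b) = Nat.pair (Enc.enc A a) (Enc.enc A b) := rfl

theorem enc_prod (p : α × β) : Enc.enc A p = Nat.pair (Enc.enc A p.1) (Enc.enc A p.2) := rfl

theorem ok_pair (x : List A) (a : α) (b : β) : Enc.ok x (a, b) ↔ Enc.ok x a ∧ Enc.ok x b := Iff.rfl

theorem pair_le_sq (a b : ℕ) : Nat.pair a b ≤ (a + b + 1) ^ 2 := by
  unfold Nat.pair
  split_ifs <;> nlinarith

theorem enc_pair_le (a : α) (b : β) :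
    Enc.enc A (a, b) ≤ (Enc.enc A a + Enc.enc A b + 1) ^ 2 := pair_le_sq _ _

theorem enc_prod_le (p : α × β) :
    Enc.enc A p ≤ (Enc.enc A p.1 + Enc.enc A p.2 + 1) ^ 2 := pair_le_sq _ _

/-- `f` is computed with polynomially bounded registers. -/
@[fun_prop]
def SP (B : Bud A) {α β : Type} [Enc A α] [Enc A β] (f : α → β) : Prop :=
  (∀ (x : List A) (a : α), Enc.ok x a → Enc.ok x (f a)) ∧
    Cmp B.b fun x v y => ∃ a : α, Enc.ok x a ∧ v 0 = Enc.enc A a ∧ y = Enc.enc A (f a)

/-- `g` is polynomially bounded in the code of the argument and the budget. -/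
@[fun_prop]
def PBd (B : Bud A) {α : Type} [Enc A α] (g : α → ℕ) : Prop :=
  ∃ c : ℕ, ∀ (x : List A) (a : α), Enc.ok x a → g a ≤ (Enc.enc A a + B.b x + 2) ^ c

variable {B : Bud A}

/-! ### Polynomial bounds -/

theorem PBd.mono {g g' : α → ℕ} (hg : PBd B g) (h : ∀ a, g' a ≤ g a) : PBd B g' := by
  obtain ⟨c, hc⟩ := hg
  exact ⟨c, fun x a ha => (h a).trans (hc x a ha)⟩

theorem PBd.mono_ok {g g' : α → ℕ} (hg : PBd B g)
    (h : ∀ (x : List A) a, Enc.ok x a → g' a ≤ g a) : PBd B g' := by
  obtain ⟨c, hc⟩ := hg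
  exact ⟨c, fun x a ha => (h x a ha).trans (hc x a ha)⟩

theorem PBd.enc : PBd B fun a : α => Enc.enc A a :=
  ⟨1, fun x a _ => by simp only [pow_one]; omega⟩

@[fun_prop]
theorem PBd.const (n : ℕ) : PBd B fun _ : α => n :=
  ⟨n, fun x a _ => (Nat.lt_two_pow_self (n := n)).le.trans (Nat.pow_le_pow_left (by omega) n)⟩

@[fun_prop]
theorem PBd.add {g g' : α → ℕ} (hg : PBd B g) (hg' : PBd B g') : PBd B fun a => g a + g' a := by
  obtain ⟨c, hc⟩ := hg
  obtain ⟨d, hd⟩ := hg'
  exact ⟨c + d + 1, fun x a ha => (add_le_add (hc x a ha) (hd x a ha)).trans (pb_add c d _)⟩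

@[fun_prop]
theorem PBd.mul {g g' : α → ℕ} (hg : PBd B g) (hg' : PBd B g') : PBd B fun a => g a * g' a := by
  obtain ⟨c, hc⟩ := hg
  obtain ⟨d, hd⟩ := hg'
  exact ⟨c + d, fun x a ha => (Nat.mul_le_mul (hc x a ha) (hd x a ha)).trans (pb_mul c d _).le⟩

@[fun_prop]
theorem PBd.pow {g : α → ℕ} (hg : PBd B g) (k : ℕ) : PBd B fun a => g a ^ k := by
  induction k with
  | zero => exact PBd.const 1
  | succ k ih => exact (ih.mul hg).mono fun a => (pow_succ _ _).le

theorem SP.ok {f : α → β} (hf : SP B f) {x : List A} {a : α} (h : Enc.ok x a) : Enc.ok x (f a) :=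
  hf.1 x a h

/-- The code of the value is polynomially bounded. -/
theorem SP.pbd {f : α → β} (hf : SP B f) : PBd B fun a => Enc.enc A (f a) := by
  obtain ⟨c, hc⟩ := hf.2.bound
  exact ⟨c, fun x a ha => hc x (fun _ => Enc.enc A a) _ (Enc.enc A a + B.b x) (fun _ => rfl)
    (by simp) (by omega) ⟨a, ha, rfl, rfl⟩⟩

theorem PBd.of_SP {f : α → ℕ} (hf : SP B f) : PBd B f := hf.pbd

theorem PBd.comp {g : β → ℕ} {f : α → β} (hg : PBd B g) (hf : SP B f) :
    PBd B fun a => g (f a) := by
  obtain ⟨c, hc⟩ := hg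
  obtain ⟨d, hd⟩ := hf.pbd
  refine ⟨(d + 1 + 1 + 2) * c, fun x a ha => (hc x _ (hf.ok ha)).trans ?_⟩
  have h1 : Enc.enc A (f a) ≤ pb d (Enc.enc A a + B.b x) := hd x a ha
  have h2 := le_pb 0 (Enc.enc A a + B.b x)
  have h3 := pb_add d 1 (Enc.enc A a + B.b x)
  refine le_trans (pb_mono_right c (b' := pb (d + 1 + 1) (Enc.enc A a + B.b x)) ?_) (pb_pb _ _ _)
  simp only [zero_add] at h2
  omega

theorem PBd.budget {X : α → Inp A} (hX : SP B X) : PBd B fun a => B.b (X a) :=
  ⟨1, fun x a ha => by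
    have : X a = x := hX.ok ha
    simp only [this, pow_one]; omega⟩

/-! ### Composition, pairs, constants -/

theorem SP.congr {f g : α → β} (hf : SP B f) (h : ∀ a, f a = g a) : SP B g := by
  have : f = g := funext h
  rwa [← this]

theorem SP.congr_ok {f g : α → β} (hf : SP B f)
    (h : ∀ (x : List A) a, Enc.ok x a → f a = g a) : SP B g := by
  refine ⟨fun x a ha => h x a ha ▸ hf.ok ha, hf.2.mono ?_⟩
  rintro x v y ⟨a, ha, h1, h2⟩
  exact ⟨a, ha, h1, by rw [h2, h x a ha]⟩

theorem SP.of_CF {f : α → β} {g : (ℕ → ℕ) → ℕ} (hg : CF B.b g)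
    (hok : ∀ (x : List A) (a : α), Enc.ok x a → Enc.ok x (f a))
    (h : ∀ v a, v 0 = Enc.enc A a → g v = Enc.enc A (f a)) : SP B f := by
  refine ⟨hok, Cmp.mono hg ?_⟩
  rintro x v y ⟨a, -, h1, h2⟩
  rw [h2, h v a h1]

@[fun_prop]
theorem SP.id : SP B fun a : α => a := SP.of_CF (CF.var 0) (fun _ _ h => h) fun _ _ h => h

@[fun_prop]
theorem SP.const [Pure A β] (b : β) : SP B fun _ : α => b :=
  SP.of_CF (CF.const (Enc.enc A b)) (fun x _ _ => Pure.ok x b) fun _ _ _ => rfl

@[fun_prop]
theorem SP.comp {f : β → γ} {g : α → β} (hf : SP B f) (hg : SP B g) : SP B fun a => f (g a) := by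
  refine ⟨fun x a h => hf.ok (hg.ok h), (hg.2.lett hf.2).mono ?_⟩
  rintro x v y ⟨a, ha, h1, h2⟩
  exact ⟨Enc.enc A (g a), ⟨a, ha, h1, rfl⟩, g a, hg.ok ha, rfl, h2⟩

@[fun_prop]
theorem SP.pair {f : α → β} {g : α → γ} (hf : SP B f) (hg : SP B g) :
    SP B fun a => (f a, g a) := by
  refine ⟨fun x a h => ⟨hf.ok h, hg.ok h⟩,
    (hf.2.lett ((hg.2.subst Nat.succ).lett ((CF.var 1).pair (CF.var 0)))).mono ?_⟩
  rintro x v y ⟨a, ha, h1, h2⟩
  exact ⟨Enc.enc A (f a), ⟨a, ha, h1, rfl⟩, Enc.enc A (g a), ⟨a, ha, h1, rfl⟩, h2⟩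

theorem SP.fst' : SP B fun p : α × β => p.1 :=
  SP.of_CF (CF.var 0).unpair1 (fun _ _ h => h.1) fun v a h => by
    rw [h, enc_prod, Nat.unpair_pair]

theorem SP.snd' : SP B fun p : α × β => p.2 :=
  SP.of_CF (CF.var 0).unpair2 (fun _ _ h => h.2) fun v a h => by
    rw [h, enc_prod, Nat.unpair_pair]

@[fun_prop]
theorem SP.fst {f : α → β × γ} (hf : SP B f) : SP B fun a => (f a).1 := SP.fst'.comp hf

@[fun_prop]
theorem SP.snd {f : α → β × γ} (hf : SP B f) : SP B fun a => (f a).2 := SP.snd'.comp hf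

/-- A binary operation on numbers. -/
theorem SP.app2 {F : ℕ → ℕ → ℕ} (hF : CF B.b fun v => F (v 0) (v 1)) {f g : α → ℕ} (hf : SP B f)
    (hg : SP B g) : SP B fun a => F (f a) (g a) := by
  have : SP B fun p : ℕ × ℕ => F p.1 p.2 :=
    SP.of_CF (CF.app2 hF (CF.var 0).unpair1 (CF.var 0).unpair2) (fun _ _ _ => trivial)
      fun v a h => by rw [h, enc_prod, Nat.unpair_pair]; rfl
  exact this.comp (hf.pair hg)

@[fun_prop]
theorem SP.add {f g : α → ℕ} (hf : SP B f) (hg : SP B g) : SP B fun a => f a + g a :=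
  SP.app2 (F := fun a b => a + b) ((CF.var 0).add (CF.var 1)) hf hg

@[fun_prop]
theorem SP.sub {f g : α → ℕ} (hf : SP B f) (hg : SP B g) : SP B fun a => f a - g a :=
  SP.app2 (F := fun a b => a - b) ((CF.var 0).sub (CF.var 1)) hf hg

@[fun_prop]
theorem SP.mul {f g : α → ℕ} (hf : SP B f) (hg : SP B g) : SP B fun a => f a * g a :=
  SP.app2 (F := fun a b => a * b) ((CF.var 0).mul (CF.var 1)) hf hg

/-! ### Case distinctions -/

theorem SP.cond {c : α → Bool} {f g : α → β} (hc : SP B c) (hf : SP B f) (hg : SP B g) :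
    SP B fun a => bif c a then f a else g a := by
  have : SP B fun p : Bool × β × β => bif p.1 then p.2.1 else p.2.2 := by
    refine SP.of_CF (CF.ifz (CF.var 0).unpair1 (CF.var 0).unpair2.unpair2
      (CF.var 0).unpair2.unpair1) ?_ ?_
    · rintro x ⟨b, u, w⟩ h
      cases b
      · exact h.2.2
      · exact h.2.1
    · rintro v ⟨b, u, w⟩ h
      rw [h]
      cases b <;> simp [enc_pair, enc_bool]
  exact this.comp (hc.pair (hf.pair hg))

theorem SP.ite {p : α → Prop} [DecidablePred p] {f g : α → β} (hp : SP B fun a => decide (p a))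
    (hf : SP B f) (hg : SP B g) : SP B fun a => if p a then f a else g a := by
  refine (hp.cond hf hg).congr fun a => ?_
  by_cases h : p a <;> simp [h]

@[fun_prop]
theorem SP.toNat {f : α → Bool} (hf : SP B f) : SP B fun a => (f a).toNat :=
  (SP.of_CF (f := fun b : Bool => b.toNat) (CF.var 0) (fun _ _ _ => trivial) fun _ _ h => h).comp hf

@[fun_prop]
theorem SP.not {f : α → Bool} (hf : SP B f) : SP B fun a => !(f a) :=
  (hf.cond (SP.const false) (SP.const true)).congr fun a => by cases f a <;> rfl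

@[fun_prop]
theorem SP.and {f g : α → Bool} (hf : SP B f) (hg : SP B g) : SP B fun a => f a && g a :=
  (hf.cond hg (SP.const false)).congr fun a => by cases f a <;> rfl

@[fun_prop]
theorem SP.or {f g : α → Bool} (hf : SP B f) (hg : SP B g) : SP B fun a => f a || g a :=
  (hf.cond (SP.const true) hg).congr fun a => by cases f a <;> rfl

@[fun_prop]
theorem SP.decide_lt {f g : α → ℕ} (hf : SP B f) (hg : SP B g) :
    SP B fun a => decide (f a < g a) := by
  have : SP B fun p : ℕ × ℕ => decide (p.1 < p.2) :=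
    SP.of_CF (CF.iflt (CF.var 0).unpair1 (CF.var 0).unpair2 (CF.const 1) (CF.const 0))
      (fun _ _ _ => trivial) fun v a h => by
        rw [h, enc_prod, Nat.unpair_pair]
        by_cases h : a.1 < a.2 <;> simp [h, enc_bool]
  exact this.comp (hf.pair hg)

theorem SP.decide_not {p : α → Prop} [DecidablePred p] (hp : SP B fun a => decide (p a)) :
    SP B fun a => decide (¬ p a) :=
  hp.not.congr fun a => by simp

theorem SP.decide_and {p q : α → Prop} [DecidablePred p] [DecidablePred q]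
    (hp : SP B fun a => decide (p a)) (hq : SP B fun a => decide (q a)) :
    SP B fun a => decide (p a ∧ q a) :=
  (hp.and hq).congr fun a => by simp

theorem SP.decide_or {p q : α → Prop} [DecidablePred p] [DecidablePred q]
    (hp : SP B fun a => decide (p a)) (hq : SP B fun a => decide (q a)) :
    SP B fun a => decide (p a ∨ q a) :=
  (hp.or hq).congr fun a => by simp

@[fun_prop]
theorem SP.decide_le {f g : α → ℕ} (hf : SP B f) (hg : SP B g) :
    SP B fun a => decide (f a ≤ g a) :=
  (hg.decide_lt hf).not.congr fun a => by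
    by_cases h : f a ≤ g a
    · simp [h]
    · simp [h, not_le.1 h]

@[fun_prop]
theorem SP.decide_eq {f g : α → ℕ} (hf : SP B f) (hg : SP B g) :
    SP B fun a => decide (f a = g a) :=
  ((hf.decide_le hg).and (hg.decide_le hf)).congr fun a => by simp [le_antisymm_iff]

@[fun_prop]
theorem SP.decide_ne {f g : α → ℕ} (hf : SP B f) (hg : SP B g) :
    SP B fun a => decide (f a ≠ g a) := (hf.decide_eq hg).decide_not

theorem SP.decide_true {f : α → Bool} (hf : SP B f) : SP B fun a => decide (f a = true) :=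
  hf.congr fun a => by simp

/-! ### The input tape -/

theorem SP.inTest (t : InSym A → Bool) {X : α → Inp A} {i : α → ℕ} (hX : SP B X) (hi : SP B i) :
    SP B fun a => t (inAt (X a) (i a)) := by
  refine ⟨fun _ _ _ => trivial, (hi.2.lett (Cmp.inTest t 0)).mono ?_⟩
  rintro x v y ⟨a, ha, h1, h2⟩
  refine ⟨i a, ⟨a, ha, h1, rfl⟩, ?_⟩
  have : X a = x := hX.ok ha
  simp only [h2, this, cons_zero, enc_bool]
  by_cases ht : t (inAt x (i a)) = true <;> simp [ht]

/-! ### Loops -/

/-- The while loop. -/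
theorem SP.while {init : α → β} {step : β → β} {cont : β → Bool} {res : α → β} {bd : α → ℕ}
    (hi : SP B init) (hs : SP B step) (hc : SP B cont) (hb : PBd B bd)
    (h : ∀ (x : List A) (a : α), Enc.ok x a → ∃ n, res a = step^[n] (init a) ∧
      cont (step^[n] (init a)) = false ∧ (∀ k < n, cont (step^[k] (init a)) = true) ∧
      ∀ k ≤ n, Enc.enc A (step^[k] (init a)) ≤ bd a) : SP B res := by
  have hok : ∀ (x : List A) (a : α), Enc.ok x a → ∀ k, Enc.ok x (step^[k] (init a)) := by
    intro x a ha k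
    induction k with
    | zero => exact hi.ok ha
    | succ k ih => rw [iterate_succ_apply']; exact hs.ok ih
  obtain ⟨c, hb⟩ := hb
  refine ⟨fun x a ha => ?_, (hi.2.lett (hc.2.lett (Cmp.loop ((hc.comp hs).2.subst Nat.succ)
    (hs.2.subst Nat.succ) (2 * c + 1)))).mono ?_⟩
  · obtain ⟨n, h1, -⟩ := h x a ha
    rw [h1]
    exact hok x a ha n
  rintro x v y ⟨a, ha, h1, h2⟩
  obtain ⟨n, e1, e2, e3, e4⟩ := h x a ha
  refine ⟨Enc.enc A (init a), ⟨a, ha, h1, rfl⟩, Enc.enc A (cont (init a)),
    ⟨init a, hi.ok ha, rfl, rfl⟩, n, fun k => Enc.enc A (cont (step^[k] (init a))),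
    fun k => Enc.enc A (step^[k] (init a)), rfl, rfl, by rw [h2, e1], by simp [e2, enc_bool],
    fun k hk => ⟨by simp [e3 k hk, enc_bool], ⟨_, hok x a ha k, rfl, ?_⟩,
      ⟨_, hok x a ha k, rfl, ?_⟩⟩, fun b hv hB k hk => ⟨?_, ?_⟩⟩
  · simp only [iterate_succ_apply']
  · simp only [iterate_succ_apply']
  · exact (Bool.toNat_le _).trans (pb_pos _ _)
  · have h3 : Enc.enc A a ≤ b := h1 ▸ hv 2
    refine (e4 k hk).trans ((hb x a ha).trans (le_trans ?_ (pb_mono (Nat.le_succ _) b)))
    rw [pb, pow_mul]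
    exact Nat.pow_le_pow_left (by nlinarith) c

/-- The loop with index. -/
theorem SP.natRec {n : α → ℕ} {init : α → β} {step : α → ℕ → β → β} {bd : α → ℕ}
    (hn : SP B n) (hi : SP B init) (hs : SP B fun p : α × ℕ × β => step p.1 p.2.1 p.2.2)
    (hb : PBd B bd) (h : ∀ (x : List A) (a : α), Enc.ok x a → ∀ k ≤ n a,
      Enc.enc A (Nat.rec (motive := fun _ => β) (init a) (step a) k) ≤ bd a) :
    SP B fun a => Nat.rec (motive := fun _ => β) (init a) (step a) (n a) := by
  have key : ∀ (a : α) (k : ℕ),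
      (fun p : α × ℕ × β => (p.1, p.2.1 + 1, step p.1 p.2.1 p.2.2))^[k] (a, 0, init a) =
        (a, k, Nat.rec (motive := fun _ => β) (init a) (step a) k) := by
    intro a k
    induction k with
    | zero => rfl
    | succ k ih => rw [iterate_succ_apply', ih]
  have H : SP B fun a => (a, n a, Nat.rec (motive := fun _ => β) (init a) (step a) (n a)) := by
    refine SP.while (init := fun a => (a, 0, init a))
      (step := fun p : α × ℕ × β => (p.1, p.2.1 + 1, step p.1 p.2.1 p.2.2))
      (cont := fun p => decide (p.2.1 < n p.1))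
      (bd := fun a => (Enc.enc A a + (n a + bd a + 1) ^ 2 + 1) ^ 2)
      (SP.id.pair ((SP.const 0).pair hi))
      (SP.fst'.pair ((SP.snd'.fst.add (SP.const 1)).pair hs))
      (SP.snd'.fst.decide_lt (hn.comp SP.fst'))
      (((PBd.enc.add (((hn.pbd.add hb).add (PBd.const 1)).pow 2)).add (PBd.const 1)).pow 2)
      fun x a ha => ⟨n a, (key a _).symm, by simp [key], fun k hk => by simp [key, hk],
        fun k hk => ?_⟩
    rw [key]
    refine (enc_pair_le _ _).trans (Nat.pow_le_pow_left ?_ 2)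
    have h1 := h x a ha k hk
    have h2 := enc_pair_le (A := A) k (Nat.rec (motive := fun _ => β) (init a) (step a) k)
    have h3 : (Enc.enc A k + Enc.enc A (Nat.rec (motive := fun _ => β) (init a) (step a) k) + 1) ^ 2
        ≤ (n a + bd a + 1) ^ 2 := Nat.pow_le_pow_left (by rw [enc_nat]; omega) 2
    omega
  exact H.snd.snd

/-- Iteration. -/
theorem SP.iterate {n : α → ℕ} {init : α → β} {step : α → β → β} {bd : α → ℕ}
    (hn : SP B n) (hi : SP B init) (hs : SP B fun p : α × β => step p.1 p.2)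
    (hb : PBd B bd) (h : ∀ (x : List A) (a : α), Enc.ok x a → ∀ k ≤ n a,
      Enc.enc A ((step a)^[k] (init a)) ≤ bd a) :
    SP B fun a => (step a)^[n a] (init a) := by
  have key : ∀ (a : α) (k : ℕ),
      Nat.rec (motive := fun _ => β) (init a) (fun _ s => step a s) k = (step a)^[k] (init a) := by
    intro a k
    induction k with
    | zero => rfl
    | succ k ih => rw [iterate_succ_apply', ← ih]
  refine (SP.natRec (step := fun a _ s => step a s) hn hi
    (hs.comp (SP.fst'.pair SP.snd'.snd)) hb fun x a ha k hk => ?_).congr fun a => key a _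
  rw [key]
  exact h x a ha k hk

end Vale.Agent.Lib.Space
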