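import Vale.Agent.Lib.Space.SP
import Vale.Agent.Lib.Space.Compile

/-!
More closure properties of `SP`: division, powers, sums, products, tables, the input letters, and
the passage to `SPACE`.
-/

namespace Vale.Agent.Lib.Space

open Function Finset

variable {A : Type} {α β : Type} [Enc A α] [Enc A β] {B : Bud A}

@[fun_prop]
theorem SP.succ {f : α → ℕ} (hf : SP B f) : SP B fun a => (f a).succ := hf.add (SP.const 1)

@[fun_prop]
theorem SP.min {f g : α → ℕ} (hf : SP B f) (hg : SP B g) : SP B fun a => min (f a) (g a) :=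
  (hf.sub (hf.sub hg)).congr fun a => by omega

@[fun_prop]
theorem SP.max {f g : α → ℕ} (hf : SP B f) (hg : SP B g) : SP B fun a => max (f a) (g a) :=
  (hf.add (hg.sub hf)).congr fun a => by omega

@[fun_prop]
theorem SP.pow_const {f : α → ℕ} (hf : SP B f) (k : ℕ) : SP B fun a => f a ^ k := by
  induction k with
  | zero => exact (SP.const 1).congr fun a => (pow_zero _).symm
  | succ k ih => exact (ih.mul hf).congr fun a => (pow_succ _ _).symm

/-- The values of a computable function on an initial segment are polynomially bounded. -/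
theorem SP.exists_bound {n : α → ℕ} {f : α → ℕ → β} (hn : PBd B n)
    (hf : SP B fun p : α × ℕ => f p.1 p.2) : ∃ bd : α → ℕ, PBd B bd ∧
      ∀ (x : List A) (a : α), Enc.ok x a → ∀ i ≤ n a, Enc.enc A (f a i) ≤ bd a := by
  obtain ⟨c, hc⟩ := hf.pbd
  obtain ⟨d, hd⟩ := ((PBd.enc.add hn).add (PBd.const 1)).pow 2
  refine ⟨fun a => (range (n a + 1)).sup fun i => Enc.enc A (f a i),
    ⟨(d + 1 + 1 + 2) * c, fun x a ha => Finset.sup_le fun i hi => ?_⟩,
    fun x a _ i hi => Finset.le_sup (f := fun i => Enc.enc A (f a i))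
      (mem_range.2 (Nat.lt_succ_of_le hi))⟩
  refine (hc x (a, i) ⟨ha, trivial⟩).trans ?_
  have h0 : Enc.enc A (a, i) ≤ (Enc.enc A a + n a + 1) ^ 2 :=
    (enc_pair_le a i).trans (Nat.pow_le_pow_left (by
      have := mem_range.1 hi
      rw [enc_nat]; omega) 2)
  have h1 : (Enc.enc A a + n a + 1) ^ 2 ≤ pb d (Enc.enc A a + B.b x) := hd x a ha
  have h2 := le_pb 0 (Enc.enc A a + B.b x)
  have h3 := pb_add d 1 (Enc.enc A a + B.b x)
  refine le_trans (pb_mono_right c (b' := pb (d + 1 + 1) (Enc.enc A a + B.b x)) ?_) (pb_pb _ _ _)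
  simp only [zero_add] at h2
  omega

theorem SP.sum_range {n : α → ℕ} {f : α → ℕ → ℕ} (hn : SP B n)
    (hf : SP B fun p : α × ℕ => f p.1 p.2) : SP B fun a => ∑ i ∈ range (n a), f a i := by
  have key : ∀ (a : α) (k : ℕ), Nat.rec (motive := fun _ => ℕ) 0 (fun i s => s + f a i) k =
      ∑ i ∈ range k, f a i := by
    intro a k
    induction k with
    | zero => rfl
    | succ k ih => rw [sum_range_succ, ← ih]
  obtain ⟨bd, hb, hbd⟩ := SP.exists_bound hn.pbd hf
  refine (SP.natRec (step := fun a i s => s + f a i) hn (SP.const 0)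
    (SP.snd'.snd.add (hf.comp (SP.fst'.pair SP.snd'.fst))) (hn.pbd.mul hb)
    fun x a ha k hk => ?_).congr fun a => key a _
  rw [key, enc_nat]
  refine (sum_le_card_nsmul _ _ (bd a) fun i hi => ?_).trans ?_
  · exact hbd x a ha i ((mem_range.1 hi).le.trans hk)
  · rw [card_range, smul_eq_mul]
    exact Nat.mul_le_mul_right _ hk

@[fun_prop]
theorem SP.div {f g : α → ℕ} (hf : SP B f) (hg : SP B g) : SP B fun a => f a / g a := by
  have h1 : SP B fun a => ∑ i ∈ range (f a), if (i + 1) * g a ≤ f a then 1 else 0 :=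
    SP.sum_range hf (SP.ite (((SP.snd'.add (SP.const 1)).mul (hg.comp SP.fst')).decide_le
      (hf.comp SP.fst')) (SP.const 1) (SP.const 0))
  refine (SP.ite (hg.decide_eq (SP.const 0)) (SP.const 0) h1).congr fun a => ?_
  split_ifs with h
  · simp [h]
  · have h2 : (range (f a)).filter (fun i => (i + 1) * g a ≤ f a) = range (f a / g a) := by
      ext i
      have h3 := Nat.le_div_iff_mul_le (x := i + 1) (y := f a) (Nat.pos_of_ne_zero h)
      have h4 := Nat.div_le_self (f a) (g a)
      simp only [mem_filter, mem_range, ← h3]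
      omega
    rw [← card_filter, h2, card_range]

@[fun_prop]
theorem SP.mod {f g : α → ℕ} (hf : SP B f) (hg : SP B g) : SP B fun a => f a % g a :=
  (hf.sub (hg.mul (hf.div hg))).congr fun _ => (Nat.mod_def _ _).symm

theorem SP.div_pow {X b i : α → ℕ} (hX : SP B X) (hb : SP B b) (hi : SP B i) :
    SP B fun a => X a / b a ^ i a := by
  have key : ∀ X b k : ℕ, (fun s => s / b)^[k] X = X / b ^ k := by
    intro X b k
    induction k with
    | zero => simp
    | succ k ih => rw [iterate_succ_apply', ih, Nat.div_div_eq_div_mul, pow_succ]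
  refine (SP.iterate (step := fun a s => s / b a) hi hX (SP.snd'.div (hb.comp SP.fst')) hX.pbd
    fun x a _ k _ => ?_).congr fun a => key _ _ _
  rw [key]
  exact Nat.div_le_self _ _

theorem SP.min_pow {M b i : α → ℕ} (hM : SP B M) (hb : SP B b) (hi : SP B i) :
    SP B fun a => Min.min (M a) (b a ^ i a) := by
  have key : ∀ M b k : ℕ, (fun s => Min.min M (s * b))^[k] (Min.min M 1) = Min.min M (b ^ k) := by
    intro M b k
    induction k with
    | zero => simp
    | succ k ih =>
      rw [iterate_succ_apply', ih, pow_succ]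
      rcases le_total M (b ^ k) with h | h
      · rcases Nat.eq_zero_or_pos b with rfl | hb
        · simp
        · rw [min_eq_left h, min_eq_left (Nat.le_mul_of_pos_right _ hb),
            min_eq_left (h.trans (Nat.le_mul_of_pos_right _ hb))]
      · rw [min_eq_right h]
  refine (SP.iterate (step := fun a s => Min.min (M a) (s * b a)) hi (hM.min (SP.const 1))
    ((hM.comp SP.fst').min (SP.snd'.mul (hb.comp SP.fst'))) hM.pbd
    fun x a _ k _ => ?_).congr fun a => key _ _ _
  rw [key]
  exact min_le_left _ _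

theorem SP.prod_mod {q n : α → ℕ} {f : α → ℕ → ℕ} (hq : SP B q) (hn : SP B n)
    (hf : SP B fun p : α × ℕ => f p.1 p.2) :
    SP B fun a => if q a = 0 then 0 else (∏ i ∈ range (n a), f a i) % q a := by
  have key : ∀ (a : α) (k : ℕ), Nat.rec (motive := fun _ => ℕ) (if q a = 0 then 0 else 1 % q a)
      (fun i s => s * f a i % q a) k =
      if q a = 0 then 0 else (∏ i ∈ range k, f a i) % q a := by
    intro a k
    induction k with
    | zero => simp
    | succ k ih =>
      simp only [ih, prod_range_succ]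
      split_ifs with h
      · simp
      · rw [Nat.mod_mul_mod]
  refine (SP.natRec (step := fun a i s => s * f a i % q a) hn
    (SP.ite (hq.decide_eq (SP.const 0)) (SP.const 0) ((SP.const 1).mod hq))
    ((SP.snd'.snd.mul (hf.comp (SP.fst'.pair SP.snd'.fst))).mod (hq.comp SP.fst')) hq.pbd
    fun x a _ k _ => ?_).congr fun a => key a _
  rw [key, enc_nat]
  split_ifs with h
  · exact Nat.zero_le _
  · exact (Nat.mod_lt _ (Nat.pos_of_ne_zero h)).le

theorem SP.table (K : ℕ) (f : ℕ → ℕ) {g : α → ℕ} (hg : SP B g) :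
    SP B fun a => if g a < K then f (g a) else 0 := by
  induction K with
  | zero => exact (SP.const 0).congr fun a => by simp
  | succ K ih =>
    refine (SP.ite (hg.decide_eq (SP.const K)) (SP.const (f K)) ih).congr fun a => ?_
    by_cases h : g a = K
    · simp [h]
    · by_cases h' : g a < K
      · rw [if_neg h, if_pos h', if_pos (by omega)]
      · rw [if_neg h, if_neg h', if_neg (by omega)]

theorem SP.of_finite_support {f : ℕ → ℕ} (K : ℕ) (hf : ∀ n, K ≤ n → f n = 0) {g : α → ℕ}
    (hg : SP B g) : SP B fun a => f (g a) :=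
  (SP.table K f hg).congr fun a => by
    split_ifs with h
    · rfl
    · exact (hf _ (not_lt.1 h)).symm

theorem SP.finset_sum {ι : Type} (s : Finset ι) {f : ι → α → ℕ} (hf : ∀ i, SP B (f i)) :
    SP B fun a => ∑ i ∈ s, f i a := by
  classical
  induction s using Finset.induction_on with
  | empty => exact (SP.const 0).congr fun a => by simp
  | insert i s hi ih => exact ((hf i).add ih).congr fun a => by rw [sum_insert hi]

instance [Finite A] : Finite (InSym A) := by
  refine Finite.of_surjective (fun o : Option (Option A) => match o with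
    | none => InSym.first
    | some none => InSym.last
    | some (some a) => InSym.letter a) ?_
  rintro (_ | _ | a)
  exacts [⟨none, rfl⟩, ⟨some none, rfl⟩, ⟨some (some a), rfl⟩]

theorem SP.inCode [Finite A] (code : InSym A → ℕ) {X : α → Inp A} {i : α → ℕ} (hX : SP B X)
    (hi : SP B i) : SP B fun a => code (inAt (X a) (i a)) := by
  classical
  have := Fintype.ofFinite (InSym A)
  refine (SP.finset_sum univ (f := fun s a => (decide (inAt (X a) (i a) = s)).toNat * code s)
    fun s => (SP.inTest (fun u => decide (u = s)) hX hi).toNat.mul (SP.const _)).congr fun a => ?_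
  rw [sum_eq_single (inAt (X a) (i a))]
  · simp
  · intro s _ hs
    simp [hs.symm]
  · simp

/-- The while loop with a step and a test which depend on the context. -/
theorem SP.while' {init : α → β} {step : α → β → β} {cont : α → β → Bool} {res : α → β}
    {bd : α → ℕ} (hi : SP B init) (hs : SP B fun p : α × β => step p.1 p.2)
    (hc : SP B fun p : α × β => cont p.1 p.2) (hb : PBd B bd)
    (h : ∀ (x : List A) (a : α), Enc.ok x a → ∃ n, res a = (step a)^[n] (init a) ∧
      cont a ((step a)^[n] (init a)) = false ∧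
      (∀ k < n, cont a ((step a)^[k] (init a)) = true) ∧
      ∀ k ≤ n, Enc.enc A ((step a)^[k] (init a)) ≤ bd a) : SP B res := by
  have key : ∀ (a : α) (k : ℕ), (fun p : α × β => (p.1, step p.1 p.2))^[k] (a, init a) =
      (a, (step a)^[k] (init a)) := by
    intro a k
    induction k with
    | zero => rfl
    | succ k ih => rw [iterate_succ_apply', iterate_succ_apply', ih]
  have H : SP B fun a => (a, res a) := by
    refine SP.while (init := fun a => (a, init a)) (step := fun p : α × β => (p.1, step p.1 p.2))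
      (cont := fun p => cont p.1 p.2) (bd := fun a => (Enc.enc A a + bd a + 1) ^ 2)
      (SP.id.pair hi) (SP.fst'.pair hs) hc (((PBd.enc.add hb).add (PBd.const 1)).pow 2)
      fun x a ha => ?_
    obtain ⟨n, h1, h2, h3, h4⟩ := h x a ha
    refine ⟨n, by rw [key, h1], by rw [key]; exact h2, fun k hk => by rw [key]; exact h3 k hk,
      fun k hk => ?_⟩
    rw [key]
    exact (enc_pair_le _ _).trans (Nat.pow_le_pow_left (by have := h4 k hk; omega) 2)
  exact H.snd

theorem log_pb_le (c b : ℕ) : Nat.log 2 (pb c b) + 1 ≤ (2 * c + 1) * Nat.log 2 (b + 2) := by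
  have h1 : 1 ≤ Nat.log 2 (b + 2) := Nat.le_log_of_pow_le (by omega) (by omega)
  have h2 : pb c b ≤ 2 ^ ((Nat.log 2 (b + 2) + 1) * c) := by
    rw [pb, pow_mul]
    exact Nat.pow_le_pow_left (Nat.lt_pow_succ_log_self (by omega) _).le c
  have h3 := Nat.log_mono_right (b := 2) h2
  rw [Nat.log_pow (by omega)] at h3
  nlinarith

/-- A test of the input word which is computed with registers polynomially bounded in the budget
is decided in space `O(log budget)`. -/
theorem SP.mem_SPACE {f : Inp A → Bool} (hf : SP B f) {L : Language A} {s : ℕ → ℝ}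
    (hL : ∀ x, f x = true ↔ x ∈ L)
    (hB : ∃ (C : ℝ) (N : ℕ), ∀ x : List A, N ≤ x.length →
      ((Nat.log 2 (B.b x + 2) : ℕ) : ℝ) ≤ C * s x.length) : L ∈ SPACE A s := by
  obtain ⟨c, hc⟩ := hf.2
  obtain ⟨p, hp⟩ := hc (fun _ => 0) 1 fun _ => by omega
  refine mem_SPACE_of_cprog L s (.seq p (mov 1 0)) (fun x => pb c (B.b x)) (fun x => ?_) ?_
  · obtain ⟨h', E⟩ := hp x 0 (fun _ => 0) (B.b x) (f x).toNat (fun _ _ => rfl)
      (fun _ => Nat.zero_le _) le_rfl ⟨x, rfl, rfl, rfl⟩
    refine ⟨_, .seq E (mov_eval (by omega) h' _ ?_), ?_⟩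
    · simpa using (Bool.toNat_le _).trans (pb_pos _ _)
    · rw [← hL]
      cases f x <;> simp
  · obtain ⟨C, N, hC⟩ := hB
    refine ⟨(2 * c + 1) * C, N, fun x hx => ?_⟩
    have h1 : ((Nat.log 2 (pb c (B.b x)) + 1 : ℕ) : ℝ) ≤
        (((2 * c + 1) * Nat.log 2 (B.b x + 2) : ℕ) : ℝ) := Nat.cast_le.2 (log_pb_le c _)
    refine h1.trans ?_
    rw [mul_assoc]
    push_cast
    exact mul_le_mul_of_nonneg_left (hC x hx) (by positivity)

end Vale.Agent.Lib.Space
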